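import Vale.Agent.P166.Haar2.Rot.Pair

/-!
The sum of the pair derivatives over two blocks, for one size.
-/

noncomputable section

open MeasureTheory ProbabilityTheory
open scoped BigOperators

namespace Vale.Agent.P166.Haar2.Rot

open Vale.Agent.P157 (gam)
open Vale.Agent.P157.Parisi (Cube)
open Vale.Agent.P168.Limit (gw gav rav abs_rav_le abs_gav_le_of_le rav_succ rav_const_mul rav_sum
  rav_add gav_sum gav_const_mul gav_add)

variable {X : Type*} [Fintype X] {N G L n : ℕ}

theorem rav_snoc (H : X → ℝ) (F : (Fin n → X) → ℝ) (K : (Fin n → X) → X → ℝ) :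
    rav (n + 1) H (fun σ => F (fun q => σ q.castSucc) * K (fun q => σ q.castSucc) (σ (Fin.last n)))
      = rav n H (fun σ => F σ * gav H (K σ)) := by
  simp only [rav, gav]
  rw [← (Fin.snocEquiv fun _ => X).sum_comp, Fintype.sum_prod_type, Finset.sum_comm]
  refine Finset.sum_congr rfl fun σ _ => ?_
  simp only [Fin.snocEquiv_apply, Fin.prod_univ_castSucc, Fin.snoc_castSucc, Fin.snoc_last,
    Finset.mul_sum]
  exact Finset.sum_congr rfl fun y _ => by ring

theorem rav_mul_gav (H : X → ℝ) (F : (Fin n → X) → ℝ) (f : X → ℝ) :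
    rav n H F * gav H f = rav n H (fun σ => F σ * gav H f) := by
  simp only [rav, Finset.sum_mul]
  exact Finset.sum_congr rfl fun σ _ => by ring

theorem rav_sub (H : X → ℝ) (F F' : (Fin n → X) → ℝ) :
    rav n H (fun σ => F σ - F' σ) = rav n H F - rav n H F' := by
  simp only [rav, ← Finset.sum_sub_distrib]
  exact Finset.sum_congr rfl fun σ _ => by ring

/-- A product of entries of an array. -/
def monR (ls : List (Fin G × Fin n × Fin n)) (R : Fin G → Fin n → Fin n → ℝ) : ℝ :=
  (ls.map fun t => R t.1 t.2.1 t.2.2).prod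

variable (P : Sys N G) (s : ℝ) (x : Fin L → ℝ) (B : RBase N)

theorem monR_ovs (ls : List (Fin G × Fin n × Fin n)) (U : OG N) (σ : Fin n → Cube N) :
    monR ls (P.ovs U σ) = monV P ls (fun q => rot U (σ q)) := by
  induction ls with
  | nil => rfl
  | cons t ls ih =>
    rw [monR] at ih ⊢
    rw [List.map_cons, List.prod_cons, ih]
    rfl

theorem ovV_comm (g : Fin G) (v u : Fin N → ℝ) : ovV P g v u = ovV P g u v := by
  simp only [ovV, mul_comm]

theorem mix_pairs (S T : Finset (Fin N)) (α β v : Fin N → ℝ) :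
    (fun i => ∑ ab ∈ S ×ˢ T, α ab.1 * β ab.2 * gen ab.1 ab.2 v i) = mix S T α β v := by
  funext i; rw [mix, Finset.sum_product]

theorem denV_mix {S T : Finset (Fin N)} (hST : Disjoint S T) {a₁ a₂ : ℝ}
    (hS : ∀ i ∈ S, P.lam i = a₁) (hT : ∀ i ∈ T, P.lam i = a₂) (α β v : Fin N → ℝ) :
    denV P v (mix S T α β v) = (a₂ - a₁) * ((∑ i ∈ S, α i * v i) * ∑ i ∈ T, β i * v i) := by
  simp only [denV, mix_apply hST, mul_add, Finset.sum_add_distrib, mul_ite, mul_zero,
    Finset.sum_ite_mem, Finset.univ_inter]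
  have e1 : ∑ i ∈ S, P.lam i * (v i * -(α i * ∑ b ∈ T, β b * v b)) =
      -a₁ * ((∑ i ∈ S, α i * v i) * ∑ i ∈ T, β i * v i) := by
    rw [Finset.sum_mul, Finset.mul_sum]
    exact Finset.sum_congr rfl fun i hi => by rw [hS i hi]; ring
  have e2 : ∑ i ∈ T, P.lam i * (v i * (β i * ∑ a ∈ S, α a * v a)) =
      a₂ * ((∑ i ∈ S, α i * v i) * ∑ i ∈ T, β i * v i) := by
    rw [Finset.mul_sum T (fun i => β i * v i), Finset.mul_sum]
    exact Finset.sum_congr rfl fun i hi => by rw [hT i hi]; ring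
  rw [e1, e2]; ring

theorem ovs_last (U : OG N) (σ : Fin (n + 1) → Cube N) :
    (fun g p q => P.ovs U σ g p.castSucc q.castSucc) = P.ovs U (fun q : Fin n => σ q.castSucc) :=
  rfl

theorem abs_ovs_le {P : Sys N G} (hν : P.ν = N) (U : OG N) (σ : Fin n → Cube N) (g : Fin G)
    (a b : Fin n) : |P.ovs U σ g a b| ≤ 1 :=
  abs_ovV_le hν g (sum_rot_le U (σ a)) (sum_rot_le U (σ b))

theorem integrable_ov {P : Sys N G} (hν : P.ν = N) {F : (Fin G → Fin n → Fin n → ℝ) → ℝ}
    (hF : Continuous F) {M : ℝ} (hM : ∀ R, (∀ g a b, |R g a b| ≤ 1) → |F R| ≤ M) :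
    Integrable (fun z => rav n (P.ham s x B z) fun σ => F (P.ovs z.1 σ)) (dzLaw G L B) := by
  refine Integrable.of_bound (measurable_rav' P s x B fun σ => ?_).aestronglyMeasurable M
    (ae_of_all _ fun z => abs_rav_le _ _ _ fun σ => hM _ (abs_ovs_le hν z.1 σ))
  refine hF.measurable.comp ?_
  refine measurable_pi_lambda _ fun g => measurable_pi_lambda _ fun a => measurable_pi_lambda _ fun b => ?_
  exact (Finset.measurable_sum _ fun i _ => ((measurable_rot _ i).comp measurable_fst).mul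
    ((measurable_rot _ i).comp measurable_fst)).div_const _

/-- The tested relation between two blocks. -/
def relR (g₁ g₂ : Fin G) (f₁ f₂ d : ℝ) (l l' : Fin n) (R : Fin G → Fin (n + 1) → Fin (n + 1) → ℝ) :
    ℝ :=
  f₁ * R g₂ l.castSucc l'.castSucc - f₂ * R g₁ l.castSucc l'.castSucc +
    d * ((∑ i : Fin n, R g₁ l.castSucc i.castSucc * R g₂ i.castSucc l'.castSucc) -
      (n : ℝ) * (R g₁ l.castSucc (Fin.last n) * R g₂ (Fin.last n) l'.castSucc))

theorem continuous_relR (g₁ g₂ : Fin G) (f₁ f₂ d : ℝ) (l l' : Fin n) :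
    Continuous (relR g₁ g₂ f₁ f₂ d l l') := by
  unfold relR; fun_prop

theorem continuous_monR (ls : List (Fin G × Fin n × Fin n)) : Continuous (monR ls) := by
  induction ls with
  | nil => exact continuous_const
  | cons t ls ih =>
    show Continuous fun R : Fin G → Fin n → Fin n → ℝ =>
      (List.map (fun t => R t.1 t.2.1 t.2.2) (t :: ls)).prod
    simp only [List.map_cons, List.prod_cons]
    exact (by fun_prop : Continuous fun R : Fin G → Fin n → Fin n → ℝ => R t.1 t.2.1 t.2.2).mul ih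

theorem abs_monR_le {ls : List (Fin G × Fin n × Fin n)} {R : Fin G → Fin n → Fin n → ℝ}
    (h : ∀ g a b, |R g a b| ≤ 1) : |monR ls R| ≤ 1 := by
  induction ls with
  | nil => simp [monR]
  | cons t ls ih =>
    rw [monR, List.map_cons, List.prod_cons, abs_mul]
    exact mul_le_one₀ (h _ _ _) (abs_nonneg _) ih

theorem abs_relR_le (g₁ g₂ : Fin G) (f₁ f₂ d : ℝ) (l l' : Fin n)
    {R : Fin G → Fin (n + 1) → Fin (n + 1) → ℝ} (h : ∀ g a b, |R g a b| ≤ 1) :
    |relR g₁ g₂ f₁ f₂ d l l' R| ≤ |f₁| + |f₂| + |d| * (2 * n) := by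
  refine (abs_add_le _ _).trans (add_le_add ((abs_sub _ _).trans (add_le_add ?_ ?_)) ?_)
  · rw [abs_mul]; exact mul_le_of_le_one_right (abs_nonneg _) (h _ _ _)
  · rw [abs_mul]; exact mul_le_of_le_one_right (abs_nonneg _) (h _ _ _)
  · rw [abs_mul]
    refine mul_le_mul_of_nonneg_left ((abs_sub _ _).trans ?_) (abs_nonneg _)
    have h1 : |∑ i : Fin n, R g₁ l.castSucc i.castSucc * R g₂ i.castSucc l'.castSucc| ≤ n := by
      refine (Finset.abs_sum_le_sum_abs _ _).trans ((Finset.sum_le_sum (g := fun _ => (1 : ℝ))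
        fun i _ => ?_).trans_eq (by simp))
      rw [abs_mul]; exact mul_le_one₀ (h _ _ _) (abs_nonneg _) (h _ _ _)
    have h2 : |(n : ℝ) * (R g₁ l.castSucc (Fin.last n) * R g₂ (Fin.last n) l'.castSucc)| ≤ n := by
      rw [abs_mul, Nat.abs_cast, abs_mul]
      exact mul_le_of_le_one_right n.cast_nonneg (mul_le_one₀ (h _ _ _) (abs_nonneg _) (h _ _ _))
    linarith

variable {P}

/-- The estimate at one size. -/
theorem rot_bound (hν : P.ν = N) (hN : 0 < N) (hx : ∀ i, |x i| ≤ 3) {g₁ g₂ : Fin G}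
    (hdisj : Disjoint (P.S g₁) (P.S g₂)) {a₁ a₂ : ℝ} (hS : ∀ i ∈ P.S g₁, P.lam i = a₁)
    (hT : ∀ i ∈ P.S g₂, P.lam i = a₂) (ls : List (Fin G × Fin n × Fin n)) (l l' : Fin n)
    {lam : ℝ} (hlam : 0 < lam) :
    |P.ovMean s x B (n + 1) (fun R =>
        monR ls (fun g p q => R g p.castSucc q.castSucc) *
          relR g₁ g₂ (((P.S g₁).card : ℝ) / N) (((P.S g₂).card : ℝ) / N) (a₁ - a₂) l l' R)| ≤
      3 * ls.length / N +
        2 * n * (Real.log (2 * ((2 : ℝ) ^ N) ^ 3) / lam + lam * (6 * s ^ 2 / (N : ℝ) ^ 2) / 2) := by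
  set S := P.S g₁
  set T := P.S g₂
  set f₁ := (S.card : ℝ) / N
  set f₂ := (T.card : ℝ) / N
  set ε := ((N : ℝ) ^ 2)⁻¹ with hεd
  have hNR : (0 : ℝ) < N := Nat.cast_pos.2 hN
  have hε : 0 < ε := by positivity
  let e : (OG N) → (Fin 3 → Cube N) → PIdx G N L → ℝ := fun U t c =>
    ε * (s * x c.1 * coef G c.1.val *
      dfeat P (rot U (t 2)) (mix S T (rot U (t 0)) (rot U (t 1)) (rot U (t 2))) c)
  have he : ∀ U t, ∑ c, e U t c ^ 2 ≤ 6 * s ^ 2 / (N : ℝ) ^ 2 := fun U t => by
    simp only [e, mul_pow ε, ← Finset.mul_sum]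
    refine (mul_le_mul_of_nonneg_left (sum_pert_sq_le hν hN (sum_rot_le U (t 2))
      (mix_ball hdisj (sum_rot_le U _) (sum_rot_le U _) (sum_rot_le U _)) s hx) (sq_nonneg ε)).trans_eq ?_
    rw [hεd]; field_simp
  have hex := fun U => exists_gauss_sup (e U) hlam (he U)
  choose Zf hZi hZb hZl using hex
  have hpert : ∀ U J (σl σl' τ : Cube N),
      |ε * dpert P s x J (rot U τ) (mix S T (rot U σl) (rot U σl') (rot U τ))| ≤ Zf U J := by
    intro U J σl σl' τ
    refine le_of_eq_of_le (congrArg abs ?_) (hZb U J ![σl, σl', τ])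
    simp only [dpert, Finset.mul_sum, e, Matrix.cons_val_zero, Matrix.cons_val_one,
      Matrix.cons_val]
    exact Finset.sum_congr rfl fun c _ => by ring
  set D : Dz G L B → ℝ := fun z => ∑ ab ∈ S ×ˢ T, ε * pairD P s x B ls l l' ab.1 ab.2 z with hDd
  have hD0 : ∫ z, D z ∂dzLaw G L B = 0 := by
    rw [hDd, integral_finsetSum _ fun ab _ => (integrable_pairD s x B hν hN ls l l' _ _).const_mul ε]
    refine Finset.sum_eq_zero fun ab hab => ?_
    rw [Finset.mem_product] at hab
    rw [integral_const_mul, integral_pairD s x B hν hN ls l l'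
      (fun h : ab.1 = ab.2 => Finset.disjoint_left.1 hdisj hab.1 (by rw [h]; exact hab.2)), mul_zero]
  set Fm : (Fin G → Fin (n + 1) → Fin (n + 1) → ℝ) → ℝ := fun R =>
    monR ls (fun g p q => R g p.castSucc q.castSucc) * relR g₁ g₂ f₁ f₂ (a₁ - a₂) l l' R with hFm
  set Main : Dz G L B → ℝ := fun z => rav (n + 1) (P.ham s x B z) fun σ => Fm (P.ovs z.1 σ) with hMain
  have hpt : ∀ z : Dz G L B,
      |D z + Main z| ≤ 3 * ls.length / N + 2 * n * Zf z.1 z.2.1 := by
    intro z
    set H := P.ham s x B z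
    set U := z.1
    set J := z.2.1
    set V : Cube N → Fin N → ℝ := rot U
    let mon : (Fin n → Cube N) → ℝ := fun σ => monV P ls (fun q => V (σ q))
    let Qd : (Fin n → Cube N) → Cube N → ℝ := fun σ τ =>
      (a₂ - a₁) * (ovV P g₁ (V (σ l)) (V τ) * ovV P g₂ (V τ) (V (σ l')))
    let Rp : (Fin n → Cube N) → Cube N → ℝ := fun σ τ =>
      ε * dpert P s x J (V τ) (mix S T (V (σ l)) (V (σ l')) (V τ))
    let E1 : (Fin n → Cube N) → ℝ := fun σ =>
      ε * dmon P ls (fun q => V (σ q)) (fun q => mix S T (V (σ l)) (V (σ l')) (V (σ q)))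
    let A : (Fin n → Cube N) → ℝ := fun σ =>
      f₂ * ovV P g₁ (V (σ l)) (V (σ l')) - f₁ * ovV P g₂ (V (σ l)) (V (σ l'))
    have eH : ∀ (σ : Fin n → Cube N) τ, ∑ ab ∈ S ×ˢ T,
        ε * (V (σ l) ab.1 * V (σ l') ab.2 * pairH P s x ab.1 ab.2 U J τ) = Qd σ τ + Rp σ τ := by
      intro σ τ
      simp only [pairH, mul_add, Finset.sum_add_distrib, ← Finset.mul_sum, denV_sum, dpert_sum,
        mix_pairs, Rp, Qd, V]
      rw [denV_mix P hdisj hS hT]
      simp only [ovV, hν, hεd, mul_comm (rot U τ _)]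
      field_simp
      ring
    have eF : ∀ σ : Fin n → Cube N, ∑ ab ∈ S ×ˢ T, ε * pairF' P ls l l' ab.1 ab.2 U σ =
        E1 σ + mon σ * A σ := by
      intro σ
      have h1 : ∑ ab ∈ S ×ˢ T, ε * (dmon P ls (fun q => V (σ q))
          (fun q => gen ab.1 ab.2 (V (σ q))) * (V (σ l) ab.1 * V (σ l') ab.2)) = E1 σ := by
        rw [← Finset.mul_sum]
        refine congrArg (ε * ·) ?_
        rw [Finset.sum_congr rfl fun (ab : Fin N × Fin N) _ => mul_comm _ _, dmon_sum]
        refine congrArg (dmon P ls _) (funext fun q => ?_)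
        exact mix_pairs S T (V (σ l)) (V (σ l')) (V (σ q))
      have h2 : ∑ ab ∈ S ×ˢ T, (gen ab.1 ab.2 (V (σ l)) ab.1 * V (σ l') ab.2 +
          V (σ l) ab.1 * gen ab.1 ab.2 (V (σ l')) ab.2) =
          (T.card : ℝ) * (∑ i ∈ S, V (σ l) i * V (σ l') i) -
            (S.card : ℝ) * ∑ i ∈ T, V (σ l) i * V (σ l') i := by
        rw [Finset.sum_product]
        have : ∀ i ∈ S, ∑ j ∈ T, (gen i j (V (σ l)) i * V (σ l') j +
            V (σ l) i * gen i j (V (σ l')) j) =
            (T.card : ℝ) * (V (σ l) i * V (σ l') i) - ∑ j ∈ T, V (σ l) j * V (σ l') j := by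
          intro i hi
          rw [← nsmul_eq_mul, ← Finset.sum_const, ← Finset.sum_sub_distrib]
          refine Finset.sum_congr rfl fun j hj => ?_
          have hne : j ≠ i := fun h => Finset.disjoint_left.1 hdisj hi (h ▸ hj)
          simp only [gen, if_pos, if_neg hne]
          ring
        rw [Finset.sum_congr rfl this, Finset.sum_sub_distrib, ← Finset.mul_sum, Finset.sum_const,
          nsmul_eq_mul]
      simp only [pairF', mul_add, Finset.sum_add_distrib]
      rw [h1]
      congr 1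
      simp only [A, mon, ovV, hν, hεd, f₁, f₂, S, T, V] at h2 ⊢
      simp only [← mul_add, ← Finset.sum_add_distrib, ← Finset.mul_sum]
      rw [h2]
      field_simp
    have eD : D z = rav n H (fun σ => E1 σ + mon σ * A σ + mon σ * ∑ i, (Qd σ (σ i) + Rp σ (σ i))) -
        n * rav n H (fun σ => mon σ * gav H (fun τ => Qd σ τ + Rp σ τ)) := by
      simp only [hDd, pairD, mul_sub, Finset.sum_sub_distrib]
      congr 1
      · simp only [← rav_const_mul, ← rav_sum]
        refine congrArg _ (funext fun σ => ?_)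
        rw [Finset.sum_congr rfl fun (ab : Fin N × Fin N) _ => mul_add ε (pairF' P ls l l' ab.1 ab.2 U σ) _,
          Finset.sum_add_distrib, eF]
        congr 1
        simp only [← eH, Finset.mul_sum]
        rw [Finset.sum_comm]
        exact Finset.sum_congr rfl fun i _ => Finset.sum_congr rfl fun ab _ => by
          simp only [pairF, mon, V, U, J]; ring
      · simp only [mul_assoc, rav_mul_gav, mul_left_comm ε (n : ℝ)]
        rw [← Finset.mul_sum]
        refine congrArg _ ?_
        simp only [← rav_const_mul, ← rav_sum]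
        refine congrArg _ (funext fun σ => ?_)
        simp only [← eH, gav_sum, gav_const_mul, Finset.mul_sum]
        exact Finset.sum_congr rfl fun ab _ => by simp only [pairF, mon, V, U, J]; ring
    have eM : Main z = rav n H (fun σ => -(mon σ * A σ) - mon σ * ∑ i, Qd σ (σ i)) +
        n * rav n H (fun σ => mon σ * gav H (Qd σ)) := by
      rw [← rav_succ n H (fun σ => -(mon σ * A σ) - mon σ * ∑ i, Qd σ (σ i)),
        ← rav_snoc H mon Qd, ← rav_const_mul, ← rav_add]
      show rav (n + 1) H (fun σ => Fm (P.ovs U σ)) = rav (n + 1) H _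
      refine congrArg (rav (n + 1) H) (funext fun σ => ?_)
      simp only [hFm]
      rw [show monR ls (fun g p q => P.ovs U σ g p.castSucc q.castSucc) =
        monV P ls (fun q => rot U (σ q.castSucc)) from monR_ovs P ls U fun q => σ q.castSucc]
      simp only [relR, mon, A, Qd, V, U, ovs_eq, ← Finset.mul_sum]
      ring
    have eDM : D z + Main z = rav n H (fun σ => E1 σ + mon σ * ∑ i, Rp σ (σ i)) -
        n * rav n H (fun σ => mon σ * gav H (Rp σ)) := by
      rw [eD, eM]
      simp only [Finset.sum_add_distrib, gav_add, mul_add, rav_add, rav_sub]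
      have : rav n H (fun σ => -(mon σ * A σ)) = -rav n H (fun σ => mon σ * A σ) := by
        simp only [rav, mul_neg, Finset.sum_neg_distrib]
      rw [this]
      ring
    have hmon : ∀ σ, |mon σ| ≤ 1 := fun σ => abs_monV_le hν (fun q => sum_rot_le U (σ q)) ls
    have hRp : ∀ σ τ, |Rp σ τ| ≤ Zf U J := fun σ τ => hpert U J _ _ τ
    have hE1 : ∀ σ, |E1 σ| ≤ 3 * ls.length / N := fun σ => by
      simp only [E1]
      rw [abs_mul, abs_of_pos hε]
      refine (mul_le_mul_of_nonneg_left (abs_dmon_le hν (fun q => sum_rot_le U (σ q))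
        (fun g p q => abs_dov_le hν g (sum_rot_le U _) (sum_rot_le U _)
          (mix_ball hdisj (sum_rot_le U _) (sum_rot_le U _) (sum_rot_le U _))
          (mix_ball hdisj (sum_rot_le U _) (sum_rot_le U _) (sum_rot_le U _)))
        (by positivity) ls) hε.le).trans_eq ?_
      rw [hεd]; field_simp
    rw [eDM]
    have k1 : |rav n H (fun σ => E1 σ + mon σ * ∑ i, Rp σ (σ i))| ≤
        3 * ls.length / N + n * Zf U J := abs_rav_le _ _ _ fun σ =>
      (abs_add_le _ _).trans (add_le_add (hE1 σ) (by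
        rw [abs_mul]
        refine (mul_le_of_le_one_left (abs_nonneg _) (hmon σ)).trans
          ((Finset.abs_sum_le_sum_abs _ _).trans ?_)
        exact (Finset.sum_le_sum fun i _ => hRp σ (σ i)).trans_eq (by simp)))
    have k2 : |(n : ℝ) * rav n H (fun σ => mon σ * gav H (Rp σ))| ≤ n * Zf U J := by
      rw [abs_mul, Nat.abs_cast]
      refine mul_le_mul_of_nonneg_left (abs_rav_le _ _ _ fun σ => ?_) n.cast_nonneg
      rw [abs_mul]
      exact (mul_le_of_le_one_left (abs_nonneg _) (hmon σ)).trans (abs_gav_le_of_le H (hRp σ))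
    refine (abs_sub _ _).trans ?_
    linarith
  set C := 3 * (ls.length : ℝ) / N +
    2 * n * (Real.log (2 * ((2 : ℝ) ^ N) ^ 3) / lam + lam * (6 * s ^ 2 / (N : ℝ) ^ 2) / 2) with hCd
  have hDi : Integrable D (dzLaw G L B) :=
    integrable_finsetSum _ fun ab _ => (integrable_pairD s x B hν hN ls l l' _ _).const_mul ε
  have hMi : Integrable Main (dzLaw G L B) := by
    refine integrable_ov s x B hν (M := |f₁| + |f₂| + |a₁ - a₂| * (2 * n)) ?_ fun R hR => ?_
    · exact ((continuous_monR ls).comp (by fun_prop)).mul (continuous_relR ..)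
    · rw [abs_mul]
      exact (mul_le_of_le_one_left (abs_nonneg _) (abs_monR_le fun g p q => hR _ _ _)).trans
        (abs_relR_le _ _ _ _ _ _ _ hR)
  have hW : Integrable (fun z => |D z + Main z|) (dzLaw G L B) := (hDi.add hMi).abs
  have hmain : |∫ z, Main z ∂dzLaw G L B| ≤ C := by
    have h1 : ∫ z, Main z ∂dzLaw G L B = ∫ z, (D z + Main z) ∂dzLaw G L B := by
      rw [integral_add hDi hMi, hD0, zero_add]
    rw [h1]
    refine abs_integral_le_integral_abs.trans ?_
    have hW' : Integrable (fun z : OG N × ((PIdx G N L → ℝ) × B.Ω) =>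
        |D z + Main z|) ((orthHaar N).prod ((gam (PIdx G N L)).prod B.law)) := hW
    show ∫ z : OG N × ((PIdx G N L → ℝ) × B.Ω), |D z + Main z|
      ∂(orthHaar N).prod ((gam (PIdx G N L)).prod B.law) ≤ C
    rw [integral_prod _ hW']
    refine (integral_mono_ae hW'.integral_prod_left (integrable_const C) ?_).trans_eq (by simp)
    filter_upwards [hW'.prod_right_ae] with U hU
    have hZ : Integrable (fun y : (PIdx G N L → ℝ) × B.Ω =>
        3 * (ls.length : ℝ) / N + 2 * n * Zf U y.1) ((gam (PIdx G N L)).prod B.law) :=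
      (integrable_const _).add (((hZi U).comp_fst B.law).const_mul _)
    refine (integral_mono hU hZ fun y => hpt (U, y)).trans ?_
    rw [integral_add (integrable_const _) (((hZi U).comp_fst B.law).const_mul _), integral_const_mul,
      integral_fun_fst, probReal_univ, one_smul, integral_const, probReal_univ, one_smul]
    have hcard : (Fintype.card (Fin 3 → Cube N) : ℝ) = ((2 : ℝ) ^ N) ^ 3 := by simp
    have := hZl U
    rw [hcard] at this
    rw [hCd]
    gcongr
  exact hmain

end Vale.Agent.P166.Haar2.Rot
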