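import Vale.Agent.P166.Haar2.Rot.Obs
import Vale.Agent.P168.Limit.Toolkit

/-!
Bounds on the rotated derivatives: overlaps, and the Gaussian family of the perturbation.
-/

noncomputable section

open MeasureTheory ProbabilityTheory
open scoped BigOperators

namespace Vale.Agent.P166.Haar2.Rot

open Vale.Agent.P157 (gam)

variable {N G L n : ℕ} (P : Sys N G)

theorem sum_rot_sq (U : OG N) (σ : Vale.Agent.P157.Parisi.Cube N) :
    ∑ i, rot U σ i ^ 2 = N := by
  have h := act_dot U (spin σ) (spin σ)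
  rw [spin_dot] at h
  simpa [rot, dotProduct, sq] using h

theorem abs_le_sqrt_ball {v : Fin N → ℝ} (hv : ∑ i, v i ^ 2 ≤ N) (i : Fin N) :
    |v i| ≤ Real.sqrt N := by
  rw [← Real.sqrt_sq_eq_abs]
  exact Real.sqrt_le_sqrt ((Finset.single_le_sum (fun j _ => sq_nonneg (v j))
    (Finset.mem_univ i)).trans hv)

theorem abs_sum_mul_le {v u : Fin N → ℝ} {A B : ℝ} (hA : 0 ≤ A) (hB : 0 ≤ B)
    (hv : ∑ i, v i ^ 2 ≤ A ^ 2) (hu : ∑ i, u i ^ 2 ≤ B ^ 2) (S : Finset (Fin N)) :
    |∑ i ∈ S, v i * u i| ≤ A * B := by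
  refine abs_le_of_sq_le_sq ?_ (mul_nonneg hA hB)
  rw [mul_pow]
  exact (sq_sum_mul_le S v u).trans (mul_le_mul hv hu
    (Finset.sum_nonneg fun _ _ => sq_nonneg _) (sq_nonneg A))

variable {P}

theorem abs_ovV_le (hν : P.ν = N) (g : Fin G) {v u : Fin N → ℝ}
    (hv : ∑ i, v i ^ 2 ≤ N) (hu : ∑ i, u i ^ 2 ≤ N) : |ovV P g v u| ≤ 1 := by
  have hN : (0 : ℝ) ≤ N := N.cast_nonneg
  have h := abs_sum_mul_le (Real.sqrt_nonneg N) (Real.sqrt_nonneg N)
    (by rwa [Real.sq_sqrt hN]) (by rwa [Real.sq_sqrt hN]) (P.S g) (v := v) (u := u)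
  rw [Real.mul_self_sqrt hN] at h
  rw [ovV, hν, abs_div, abs_of_nonneg hN]
  exact div_le_one_of_le₀ h hN

theorem mix_ball {S T : Finset (Fin N)} (hST : Disjoint S T) {α β v : Fin N → ℝ}
    (hα : ∑ i, α i ^ 2 ≤ N) (hβ : ∑ i, β i ^ 2 ≤ N) (hv : ∑ i, v i ^ 2 ≤ N) :
    ∑ i, mix S T α β v i ^ 2 ≤ 2 * (N : ℝ) ^ 3 := by
  refine (mix_sq_le hST α β v).trans ?_
  have h0 : ∀ f : Fin N → ℝ, 0 ≤ ∑ i, f i ^ 2 := fun f => Finset.sum_nonneg fun _ _ => sq_nonneg _
  have := mul_le_mul (mul_le_mul hα hβ (h0 β) N.cast_nonneg) hv (h0 v)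
    (mul_nonneg N.cast_nonneg N.cast_nonneg)
  nlinarith

theorem abs_dov_le (hν : P.ν = N) (g : Fin G) {v u w z : Fin N → ℝ}
    (hv : ∑ i, v i ^ 2 ≤ N) (hu : ∑ i, u i ^ 2 ≤ N) (hw : ∑ i, w i ^ 2 ≤ 2 * (N : ℝ) ^ 3)
    (hz : ∑ i, z i ^ 2 ≤ 2 * (N : ℝ) ^ 3) : |dov P g v u w z| ≤ 3 * N := by
  have hN : (0 : ℝ) ≤ N := N.cast_nonneg
  set R := Real.sqrt (2 * (N : ℝ) ^ 3)
  have hR : R ^ 2 = 2 * (N : ℝ) ^ 3 := Real.sq_sqrt (by positivity)
  have h1 := abs_sum_mul_le (Real.sqrt_nonneg _) (Real.sqrt_nonneg N) (by rwa [hR])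
    (by rwa [Real.sq_sqrt hN]) (P.S g) (v := w) (u := u) (A := R)
  have h2 := abs_sum_mul_le (Real.sqrt_nonneg N) (Real.sqrt_nonneg _) (by rwa [Real.sq_sqrt hN])
    (by rwa [hR]) (P.S g) (v := v) (u := z) (B := R)
  have hp : R * Real.sqrt N ≤ 3 / 2 * (N : ℝ) ^ 2 := by
    refine abs_le_of_sq_le_sq' ?_ (by positivity) |>.2
    rw [mul_pow, hR, Real.sq_sqrt hN]
    nlinarith [sq_nonneg ((N : ℝ) ^ 2)]
  have h : |∑ i ∈ P.S g, (w i * u i + v i * z i)| ≤ 3 * (N : ℝ) ^ 2 := by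
    rw [Finset.sum_add_distrib]
    refine (abs_add_le _ _).trans ?_
    rw [mul_comm (Real.sqrt N) R] at h2
    linarith
  rw [dov, hν, abs_div, abs_of_nonneg hN]
  rcases hN.eq_or_lt with h0 | h0
  · simp [← h0]
  · rw [div_le_iff₀ h0]; nlinarith

theorem abs_monV_le (hν : P.ν = N) {V : Fin n → Fin N → ℝ} (hV : ∀ q, ∑ i, V q i ^ 2 ≤ N) :
    ∀ l : List (Fin G × Fin n × Fin n), |monV P l V| ≤ 1
  | [] => by simp [monV]
  | t :: l => by
    rw [monV, abs_mul]
    exact mul_le_one₀ (abs_ovV_le hν _ (hV _) (hV _)) (abs_nonneg _) (abs_monV_le hν hV l)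

theorem abs_dmon_le (hν : P.ν = N) {V W : Fin n → Fin N → ℝ} (hV : ∀ q, ∑ i, V q i ^ 2 ≤ N)
    {D : ℝ} (hW : ∀ g a b, |dov P g (V a) (V b) (W a) (W b)| ≤ D) (hD : 0 ≤ D) :
    ∀ l : List (Fin G × Fin n × Fin n), |dmon P l V W| ≤ l.length * D
  | [] => by simp [dmon]
  | t :: l => by
    rw [dmon, List.length_cons, Nat.cast_succ]
    refine (abs_add_le _ _).trans ?_
    rw [abs_mul, abs_mul]
    have h1 := mul_le_mul (hW t.1 t.2.1 t.2.2) (abs_monV_le hν hV l) (abs_nonneg _) hD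
    have h2 := mul_le_mul (abs_ovV_le hν t.1 (hV t.2.1) (hV t.2.2)) (abs_dmon_le hν hV hW hD l)
      (abs_nonneg _) zero_le_one
    linarith

theorem abs_feat_factor_le (hν : P.ν = N) {g : Fin G} {v : Fin N → ℝ} {R : ℝ}
    (hv : ∀ i, |v i| ≤ R) (i : Fin N) :
    |if i ∈ P.S g then v i / Real.sqrt P.ν else 0| ≤ R / Real.sqrt N := by
  have hR : 0 ≤ R := (abs_nonneg _).trans (hv i)
  split_ifs
  · rw [hν, abs_div, abs_of_nonneg (Real.sqrt_nonneg _)]
    exact div_le_div_of_nonneg_right (hv i) (Real.sqrt_nonneg _)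
  · rw [abs_zero]; positivity

theorem abs_dfeat_le (hν : P.ν = N) (hN : 0 < N) {v w : Fin N → ℝ} {R : ℝ}
    (hv : ∀ i, |v i| ≤ Real.sqrt N) (hw : ∀ i, |w i| ≤ R) (c : PIdx G N L) :
    |dfeat P v w c| ≤ Fintype.card (Word G c.1.val) * (R / Real.sqrt N) := by
  have hs : (0 : ℝ) < Real.sqrt N := Real.sqrt_pos.2 (Nat.cast_pos.2 hN)
  refine (Finset.abs_sum_le_sum_abs _ _).trans ?_
  refine le_trans (Finset.sum_le_sum (g := fun _ => R / Real.sqrt N) fun p _ => ?_) (by simp)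
  rw [abs_mul]
  refine le_trans (mul_le_mul_of_nonneg_right ?_ (abs_nonneg _))
    (by rw [one_mul]; exact abs_feat_factor_le hν hw _)
  rw [Finset.abs_prod]
  exact Finset.prod_le_one (fun _ _ => abs_nonneg _) fun q _ =>
    (abs_feat_factor_le hν hv _).trans_eq (div_self hs.ne')

theorem coef_nonneg (G i : ℕ) : 0 ≤ coef G i := by unfold coef; positivity

theorem coef_card_le (G i : ℕ) :
    coef G i * Fintype.card (Word G i) ≤ (1 / 2 : ℝ) ^ (i + 1) := by
  have h : (Fintype.card (Word G i) : ℝ) = (∑ g, mexp G i g : ℕ) := by simp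
  rw [h, coef, div_mul_eq_mul_div, div_le_iff₀ (by positivity)]
  exact mul_le_mul_of_nonneg_left (by linarith) (by positivity)

/-- The squared coefficients of the derivative of one monomial. -/
theorem sum_dfeat_sq_le (hν : P.ν = N) (hN : 0 < N) {v w : Fin N → ℝ}
    (hv : ∑ i, v i ^ 2 ≤ N) (hw : ∑ i, w i ^ 2 ≤ 2 * (N : ℝ) ^ 3) (i : Fin L) :
    ∑ t : Word G i.val → Fin N, dfeat P v w ⟨i, t⟩ ^ 2 ≤
      (Fintype.card (Word G i.val) : ℝ) ^ 2 * (2 * (N : ℝ) ^ 2) := by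
  classical
  have hNR : (0 : ℝ) < N := Nat.cast_pos.2 hN
  set f : (Fin N → ℝ) → Fin G → Fin N → ℝ := fun u g j =>
    if j ∈ P.S g then u j / Real.sqrt P.ν else 0 with hf
  have hsq : ∀ u g, ∑ j, f u g j ^ 2 ≤ (∑ j, u j ^ 2) / N := fun u g => by
    rw [Finset.sum_div]
    refine Finset.sum_le_sum fun j _ => ?_
    simp only [hf]
    split_ifs
    · rw [div_pow, hν, Real.sq_sqrt hNR.le]
    · simp only [ne_eq, OfNat.ofNat_ne_zero, not_false_eq_true, zero_pow]; positivity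
  set A : Word G i.val → (Word G i.val → Fin N) → ℝ := fun p t =>
    (∏ q ∈ Finset.univ.erase p, f v q.1 (t q)) * f w p.1 (t p) with hA
  have hAe : ∀ t, dfeat P v w ⟨i, t⟩ = ∑ p, A p t := fun t => rfl
  have hA2 : ∀ p, ∑ t, A p t ^ 2 ≤ 2 * (N : ℝ) ^ 2 := fun p => by
    have e : ∀ t, A p t ^ 2 = ∏ q, (if q = p then f w q.1 (t q) else f v q.1 (t q)) ^ 2 := fun t => by
      rw [Finset.prod_pow, ← Finset.prod_erase_mul _ _ (Finset.mem_univ p), if_pos rfl]
      refine congrArg (· ^ 2) (congrArg (· * _) (Finset.prod_congr rfl fun q hq => ?_))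
      rw [if_neg (Finset.ne_of_mem_erase hq)]
    simp only [e]
    rw [← Fintype.prod_sum (fun q j => (if q = p then f w q.1 j else f v q.1 j) ^ 2),
      ← Finset.prod_erase_mul _ _ (Finset.mem_univ p)]
    refine le_trans (mul_le_of_le_one_left (Finset.sum_nonneg fun _ _ => sq_nonneg _) ?_) ?_
    · refine Finset.prod_le_one (fun _ _ => Finset.sum_nonneg fun _ _ => sq_nonneg _) fun q hq => ?_
      simp only [if_neg (Finset.ne_of_mem_erase hq)]
      exact (hsq v q.1).trans (div_le_one_of_le₀ hv hNR.le)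
    · simp only [if_pos]
      refine (hsq w p.1).trans ?_
      rw [div_le_iff₀ hNR]
      linarith
  calc ∑ t, dfeat P v w ⟨i, t⟩ ^ 2
      ≤ ∑ t, (Fintype.card (Word G i.val) : ℝ) * ∑ p, A p t ^ 2 := by
        refine Finset.sum_le_sum fun t _ => ?_
        rw [hAe]
        exact sq_sum_le_card_mul_sum_sq
    _ = (Fintype.card (Word G i.val) : ℝ) * ∑ p, ∑ t, A p t ^ 2 := by
        rw [← Finset.mul_sum, Finset.sum_comm]
    _ ≤ (Fintype.card (Word G i.val) : ℝ) * ∑ _p : Word G i.val, 2 * (N : ℝ) ^ 2 := by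
        gcongr with p; exact hA2 p
    _ = _ := by rw [Finset.sum_const, Finset.card_univ, nsmul_eq_mul]; ring

theorem sum_quarter_le (L : ℕ) : ∑ i : Fin L, (1 / 4 : ℝ) ^ (i.val + 1) ≤ 1 / 3 := by
  rw [Fin.sum_univ_eq_sum_range (fun j => (1 / 4 : ℝ) ^ (j + 1)) L]
  simp only [pow_succ]
  rw [← Finset.sum_mul, geom_sum_eq (by norm_num) L]
  have := pow_pos (show (0 : ℝ) < 1 / 4 by norm_num) L
  rw [show ((1 / 4 : ℝ) ^ L - 1) / (1 / 4 - 1) * (1 / 4) = (1 - (1 / 4) ^ L) / 3 by ring]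
  linarith

/-- The variance of the derivative of the perturbation. -/
theorem sum_pert_sq_le (hν : P.ν = N) (hN : 0 < N) {v w : Fin N → ℝ}
    (hv : ∑ i, v i ^ 2 ≤ N) (hw : ∑ i, w i ^ 2 ≤ 2 * (N : ℝ) ^ 3) (s : ℝ) {x : Fin L → ℝ}
    (hx : ∀ i, |x i| ≤ 3) :
    ∑ c : PIdx G N L, (s * x c.1 * coef G c.1.val * dfeat P v w c) ^ 2 ≤
      6 * s ^ 2 * (N : ℝ) ^ 2 := by
  rw [Fintype.sum_sigma]
  calc ∑ i : Fin L, ∑ t : Word G i.val → Fin N,
        (s * x i * coef G i.val * dfeat P v w ⟨i, t⟩) ^ 2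
      ≤ ∑ i : Fin L, 18 * s ^ 2 * (N : ℝ) ^ 2 * (1 / 4 : ℝ) ^ (i.val + 1) := by
        refine Finset.sum_le_sum fun i _ => ?_
        have h1 := mul_le_mul_of_nonneg_left (sum_dfeat_sq_le hν hN hv hw i (P := P))
          (sq_nonneg (s * x i * coef G i.val))
        simp only [mul_pow _ (dfeat P v w _)] at *
        rw [← Finset.mul_sum]
        refine h1.trans ?_
        have h2 : x i ^ 2 ≤ 9 := by nlinarith [hx i, abs_nonneg (x i), sq_abs (x i)]
        have h3 : (coef G i.val * Fintype.card (Word G i.val)) ^ 2 ≤ (1 / 4 : ℝ) ^ (i.val + 1) := by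
          refine (pow_le_pow_left₀ (mul_nonneg (coef_nonneg _ _) (Nat.cast_nonneg _))
            (coef_card_le G i.val) 2).trans_eq ?_
          rw [← pow_mul, mul_comm, pow_mul]; norm_num
        have h4 := mul_le_mul h2 h3 (sq_nonneg _) (by norm_num)
        have h5 := mul_le_mul_of_nonneg_left h4 (show 0 ≤ 2 * s ^ 2 * (N : ℝ) ^ 2 by positivity)
        nlinarith
    _ ≤ 6 * s ^ 2 * (N : ℝ) ^ 2 := by
        rw [← Finset.mul_sum]
        have := mul_le_mul_of_nonneg_left (sum_quarter_le L)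
          (show 0 ≤ 18 * s ^ 2 * (N : ℝ) ^ 2 by positivity)
        linarith

/-- A bound on all members of a Gaussian family. -/
theorem exists_gauss_sup {ι C : Type*} [Fintype ι] [Nonempty ι] [Fintype C] (e : ι → C → ℝ)
    {V lam : ℝ} (hlam : 0 < lam) (he : ∀ t, ∑ c, e t c ^ 2 ≤ V) :
    ∃ Z : (C → ℝ) → ℝ, Integrable Z (gam C) ∧ (∀ J t, |∑ c, J c * e t c| ≤ Z J) ∧
      ∫ J, Z J ∂gam C ≤ Real.log (2 * Fintype.card ι) / lam + lam * V / 2 := by
  classical
  set Y : (C → ℝ) → ℝ := fun J => ∑ t, (Real.exp (lam * ∑ c, J c * e t c) +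
    Real.exp (-(lam * ∑ c, J c * e t c))) with hY
  have he' : ∀ (t : ι) (ε : ℝ), (fun J : C → ℝ => Real.exp (ε * (lam * ∑ c, J c * e t c))) =
      fun J => Real.exp (∑ c, ε * lam * e t c * J c) := fun t ε => by
    funext J; rw [Finset.mul_sum, Finset.mul_sum]
    exact congrArg _ (Finset.sum_congr rfl fun c _ => by ring)
  have hint : ∀ t (ε : ℝ), Integrable (fun J : C → ℝ =>
      Real.exp (ε * (lam * ∑ c, J c * e t c))) (gam C) := fun t ε => by
    rw [he']; exact Vale.Agent.P168.Toolkit.integrable_exp_linear _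
  have hval : ∀ t (ε : ℝ), ε ^ 2 = 1 → ∫ J : C → ℝ,
      Real.exp (ε * (lam * ∑ c, J c * e t c)) ∂gam C ≤ Real.exp (lam ^ 2 * V / 2) := fun t ε hε => by
    rw [he']
    refine le_of_eq_of_le (Vale.Agent.P168.Toolkit.integral_exp_linear _) (Real.exp_le_exp.2 ?_)
    simp only [mul_pow, hε, one_mul, ← Finset.mul_sum]
    gcongr
    exact he t
  have hYi : Integrable Y (gam C) := by
    refine integrable_finsetSum _ fun t _ => ?_
    refine Integrable.add ?_ ?_
    · simpa using hint t 1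
    · simpa using hint t (-1)
  have hY2 : ∀ J, 2 ≤ Y J := fun J => by
    obtain ⟨t⟩ := ‹Nonempty ι›
    refine le_trans ?_ (Finset.single_le_sum (fun u _ => by positivity) (Finset.mem_univ t))
    have h1 := Real.add_one_le_exp (lam * ∑ c, J c * e t c)
    have h2 := Real.add_one_le_exp (-(lam * ∑ c, J c * e t c))
    linarith
  set M := 2 * (Fintype.card ι : ℝ) * Real.exp (lam ^ 2 * V / 2) with hM
  have hcard : (0 : ℝ) < Fintype.card ι := Nat.cast_pos.2 Fintype.card_pos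
  have hM0 : 0 < M := by positivity
  have hYint : ∫ J, Y J ∂gam C ≤ M := by
    rw [hY, integral_finsetSum _ fun t _ => by
      exact Integrable.add (by simpa using hint t 1) (by simpa using hint t (-1))]
    refine (Finset.sum_le_sum (g := fun _ => 2 * Real.exp (lam ^ 2 * V / 2)) fun t _ => ?_).trans_eq
      (by simp [hM]; ring)
    rw [integral_add (by simpa using hint t 1) (by simpa using hint t (-1))]
    have h1 := hval t 1 (one_pow 2)
    have h2 := hval t (-1) (by norm_num)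
    simp only [one_mul, neg_one_mul] at h1 h2
    linarith
  have hlog : ∀ J, Real.log (Y J) ≤ Real.log M + (Y J / M - 1) := fun J => by
    have h := Real.log_le_sub_one_of_pos (show 0 < Y J / M by have := hY2 J; positivity)
    rw [Real.log_div (by linarith [hY2 J]) hM0.ne'] at h
    linarith
  have hli : Integrable (fun J => Real.log (Y J)) (gam C) := by
    refine hYi.mono' (Real.measurable_log.comp_aemeasurable hYi.aemeasurable).aestronglyMeasurable
      (ae_of_all _ fun J => ?_)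
    rw [Real.norm_eq_abs, abs_of_nonneg (Real.log_nonneg (by linarith [hY2 J]))]
    linarith [Real.log_le_sub_one_of_pos (show 0 < Y J by linarith [hY2 J])]
  refine ⟨fun J => Real.log (Y J) / lam, hli.div_const _, fun J t => ?_, ?_⟩
  · rw [le_div_iff₀ hlam, Real.le_log_iff_exp_le (by linarith [hY2 J])]
    refine le_trans ?_ (Finset.single_le_sum (fun u _ => by positivity) (Finset.mem_univ t))
    rw [mul_comm, ← abs_of_pos hlam, ← abs_mul, abs_of_pos hlam]
    rcases abs_choice (lam * ∑ c, J c * e t c) with h | h <;> rw [h]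
    · exact le_add_of_nonneg_right (Real.exp_pos _).le
    · exact le_add_of_nonneg_left (Real.exp_pos _).le
  · rw [integral_div]
    have h1 : Integrable (fun J => Y J / M - 1) (gam C) := (hYi.div_const M).sub (integrable_const 1)
    have hb : Integrable (fun J => Real.log M + (Y J / M - 1)) (gam C) :=
      (integrable_const (Real.log M)).add h1
    have h : ∫ J, Real.log (Y J) ∂gam C ≤ Real.log M + ((∫ J, Y J ∂gam C) / M - 1) := by
      refine (integral_mono hli hb hlog).trans_eq ?_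
      rw [integral_add (integrable_const _) h1, integral_sub (hYi.div_const M) (integrable_const _),
        integral_div]
      simp
    have h' : (∫ J, Y J ∂gam C) / M ≤ 1 := div_le_one_of_le₀ hYint hM0.le
    calc (∫ J, Real.log (Y J) ∂gam C) / lam
        ≤ Real.log M / lam := div_le_div_of_nonneg_right (by linarith) hlam.le
      _ = Real.log (2 * Fintype.card ι) / lam + lam * V / 2 := by
          rw [hM, Real.log_mul (by positivity) (Real.exp_pos _).ne', Real.log_exp]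
          field_simp

end Vale.Agent.P166.Haar2.Rot
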