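import Vale.Agent.P166.Haar2.Statements
import Vale.Agent.P166.Haar2.Rot.Bound

/-!
The rotation identity in the limit.
-/

noncomputable section

open MeasureTheory ProbabilityTheory Filter
open scoped BigOperators Topology

namespace Vale.Agent.P166.Haar2.Rot

open Vale.Agent.P157.Parisi (Cube scale)
open Vale.Agent.P168.Limit (gav rav abs_rav_le rav_const_mul rav_add)

variable {G n : ℕ}

/-- The coordinate functions of arrays. -/
def coord (t : Fin G × Fin n × Fin n) : C(Fin G → Fin n → Fin n → ℝ, ℝ) :=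
  ⟨fun R => R t.1 t.2.1 t.2.2, by fun_prop⟩

theorem separates_coord :
    (Algebra.adjoin ℝ (Set.range (coord (G := G) (n := n)))).SeparatesPoints := by
  intro R R' h
  obtain ⟨g, hg⟩ := Function.ne_iff.1 h
  obtain ⟨a, ha⟩ := Function.ne_iff.1 hg
  obtain ⟨b, hb⟩ := Function.ne_iff.1 ha
  exact ⟨_, ⟨coord (g, a, b), Algebra.subset_adjoin ⟨_, rfl⟩, rfl⟩, hb⟩

theorem exists_word {f : C(Fin G → Fin n → Fin n → ℝ, ℝ)}
    (hf : f ∈ Submonoid.closure (Set.range (coord (G := G) (n := n)))) :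
    ∃ ls : List (Fin G × Fin n × Fin n), ∀ R, f R = monR ls R := by
  induction hf using Submonoid.closure_induction with
  | mem y hy =>
    obtain ⟨t, rfl⟩ := hy
    exact ⟨[t], fun R => by simp [monR, coord]⟩
  | one => exact ⟨[], fun R => by simp [monR]⟩
  | mul y z _ _ hy hz =>
    obtain ⟨l1, h1⟩ := hy
    obtain ⟨l2, h2⟩ := hz
    exact ⟨l1 ++ l2, fun R => by simp [monR, h1, h2, monR]⟩

variable {N L : ℕ} {P : Sys N G} {s : ℝ} {x : Fin L → ℝ} {B : RBase N}

theorem abs_ovMean_le (hν : P.ν = N) {F : (Fin G → Fin n → Fin n → ℝ) → ℝ} {M : ℝ}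
    (hM : ∀ R, (∀ g a b, |R g a b| ≤ 1) → |F R| ≤ M) : |P.ovMean s x B n F| ≤ M := by
  rw [← Real.norm_eq_abs]
  refine (norm_integral_le_of_norm_le_const (C := M) (ae_of_all _ fun z => ?_)).trans
    (le_of_eq (by simp))
  exact abs_rav_le _ _ _ fun σ => hM _ (abs_ovs_le hν z.1 σ)

theorem ovMean_lin (hν : P.ν = N) {F F' : (Fin G → Fin n → Fin n → ℝ) → ℝ} (hF : Continuous F)
    (hF' : Continuous F') {M M' : ℝ} (hM : ∀ R, (∀ g a b, |R g a b| ≤ 1) → |F R| ≤ M)
    (hM' : ∀ R, (∀ g a b, |R g a b| ≤ 1) → |F' R| ≤ M') (c : ℝ) :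
    P.ovMean s x B n (fun R => F R + c * F' R) =
      P.ovMean s x B n F + c * P.ovMean s x B n F' := by
  rw [Sys.ovMean, Sys.ovMean, Sys.ovMean, ← integral_const_mul,
    ← integral_add (integrable_ov s x B hν hF hM) ((integrable_ov s x B hν hF' hM').const_mul c)]
  exact integral_congr_ae (ae_of_all _ fun z => by simp only [rav_add, rav_const_mul])

theorem exists_cube_bound {F : (Fin G → Fin n → Fin n → ℝ) → ℝ} (hF : Continuous F) :
    ∃ M, ∀ R, (∀ g a b, |R g a b| ≤ 1) → |F R| ≤ M := by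
  obtain ⟨M, hM⟩ := (isCompact_univ_pi fun _ : Fin G => isCompact_univ_pi fun _ : Fin n =>
    isCompact_univ_pi fun _ : Fin n => isCompact_Icc (a := (-1 : ℝ)) (b := 1)).exists_bound_of_continuousOn
      hF.continuousOn
  exact ⟨M, fun R hR => hM R fun g _ a _ b _ => abs_le.1 (hR g a b)⟩

/-- The rate. -/
def rate (n d : ℕ) (N : ℕ) : ℝ := 3 * d / N + 14 * n * (N : ℝ) ^ (-(1 / 8 : ℝ))

theorem gauss_rate {N : ℕ} (hN : 0 < N) :
    Real.log (2 * ((2 : ℝ) ^ N) ^ 3) / (N : ℝ) ^ (9 / 8 : ℝ) +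
        (N : ℝ) ^ (9 / 8 : ℝ) * (6 * scale N ^ 2 / (N : ℝ) ^ 2) / 2 ≤
      7 * (N : ℝ) ^ (-(1 / 8 : ℝ)) := by
  have hNR : (0 : ℝ) < N := Nat.cast_pos.2 hN
  have h1 : (1 : ℝ) ≤ N := Nat.one_le_cast.2 hN
  have e1 : (N : ℝ) ^ (9 / 8 : ℝ) * (6 * scale N ^ 2 / (N : ℝ) ^ 2) / 2 =
      3 * (N : ℝ) ^ (-(1 / 8 : ℝ)) := by
    have h : (N : ℝ) ^ (9 / 8 : ℝ) * (N : ℝ) ^ (3 / 8 : ℝ) * (N : ℝ) ^ (3 / 8 : ℝ) =
        (N : ℝ) ^ (-(1 / 8 : ℝ)) * (N : ℝ) ^ 2 := by
      rw [← Real.rpow_natCast (N : ℝ) 2, ← Real.rpow_add hNR, ← Real.rpow_add hNR,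
        ← Real.rpow_add hNR]
      norm_num
    rw [scale, sq ((N : ℝ) ^ (3 / 8 : ℝ))]
    field_simp
    linear_combination h * 6
  have e2 : Real.log (2 * ((2 : ℝ) ^ N) ^ 3) / (N : ℝ) ^ (9 / 8 : ℝ) ≤
      4 * (N : ℝ) ^ (-(1 / 8 : ℝ)) := by
    rw [div_le_iff₀ (Real.rpow_pos_of_pos hNR _), mul_assoc, ← Real.rpow_add hNR,
      show -(1 / 8 : ℝ) + 9 / 8 = 1 by norm_num, Real.rpow_one]
    have h2 : Real.log 2 ≤ 1 := by
      have := Real.log_le_sub_one_of_pos (show (0 : ℝ) < 2 by norm_num)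
      linarith
    rw [← pow_mul, ← pow_succ', Real.log_pow]
    refine (mul_le_of_le_one_right (Nat.cast_nonneg _) h2).trans ?_
    push_cast
    linarith
  linarith

theorem mono_bound {N K d : ℕ} {a : Fin (K + 1) → ℝ} {w : Fin N → Fin (K + 1)} (hN : 0 < N)
    {B : RBase N} {x : Fin N → ℝ} (hx : ∀ i, |x i| ≤ 3) (A : Atoms K) (l l' : Fin n)
    {k k' : Fin (K + 1)} (hk : k ≠ k') (ls : List (Fin (K + 2) × Fin n × Fin n))
    (hd : ls.length ≤ d) :
    |(stdSys a w).ovMean (scale N) x B (n + 1) (fun R =>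
        monR ls (fun g p q => R g p.castSucc q.castSucc) *
          relR k.succ k'.succ (A.c k) (A.c k') (A.a k - A.a k') l l' R)| ≤
      rate n d N + (|A.c k - frac w k| + |A.c k' - frac w k'| +
        |(A.a k - A.a k') - (a k - a k')| * (2 * n)) := by
  set P : Sys N (K + 2) := stdSys a w
  have hν : P.ν = N := rfl
  set mon : (Fin (K + 2) → Fin (n + 1) → Fin (n + 1) → ℝ) → ℝ :=
    fun R => monR ls (fun g p q => R g p.castSucc q.castSucc)
  set F1 : (Fin (K + 2) → Fin (n + 1) → Fin (n + 1) → ℝ) → ℝ := fun R =>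
    mon R * relR k.succ k'.succ (frac w k) (frac w k') (a k - a k') l l' R
  set F2 : (Fin (K + 2) → Fin (n + 1) → Fin (n + 1) → ℝ) → ℝ := fun R =>
    mon R * relR k.succ k'.succ (A.c k - frac w k) (A.c k' - frac w k')
      ((A.a k - A.a k') - (a k - a k')) l l' R
  have hmc : Continuous mon := (continuous_monR ls).comp (by fun_prop)
  have hb : ∀ (f1 f2 d : ℝ) R, (∀ g a b, |R g a b| ≤ 1) →
      |mon R * relR k.succ k'.succ f1 f2 d l l' R| ≤ |f1| + |f2| + |d| * (2 * n) := fun f1 f2 d R hR => by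
    rw [abs_mul]
    exact (mul_le_of_le_one_left (abs_nonneg _) (abs_monR_le fun g p q => hR _ _ _)).trans
      (abs_relR_le _ _ _ _ _ _ _ hR)
  have e : (fun R => mon R * relR k.succ k'.succ (A.c k) (A.c k') (A.a k - A.a k') l l' R) =
      fun R => F1 R + 1 * F2 R := funext fun R => by simp only [F1, F2, relR]; ring
  rw [e, ovMean_lin (F := F1) (F' := F2) hν (hmc.mul (continuous_relR ..))
    (hmc.mul (continuous_relR ..)) (hb _ _ _) (hb _ _ _), one_mul]
  refine (abs_add_le _ _).trans (add_le_add ?_ (abs_ovMean_le hν (hb _ _ _)))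
  have hS : P.S k.succ = Finset.univ.filter fun i => w i = k := rfl
  have hT : P.S k'.succ = Finset.univ.filter fun i => w i = k' := rfl
  have hmain := rot_bound (scale N) x B (P := P) hν hN hx (g₁ := k.succ) (g₂ := k'.succ)
    (a₁ := a k) (a₂ := a k')
    (by rw [hS, hT]; exact Finset.disjoint_filter.2 fun i _ h1 h2 => hk (h1.symm.trans h2))
    (fun i hi => by rw [hS, Finset.mem_filter] at hi; exact congrArg a hi.2)
    (fun i hi => by rw [hT, Finset.mem_filter] at hi; exact congrArg a hi.2) ls l l'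
    (lam := (N : ℝ) ^ (9 / 8 : ℝ)) (Real.rpow_pos_of_pos (Nat.cast_pos.2 hN) _)
  refine hmain.trans ?_
  rw [rate]
  have h1 := mul_le_mul_of_nonneg_left (gauss_rate hN) (show (0 : ℝ) ≤ 2 * n by positivity)
  have h2 : 3 * (ls.length : ℝ) / N ≤ 3 * d / N := by gcongr
  linarith

theorem tendsto_rate (n d : ℕ) {N : ℕ → ℕ} (hN : Tendsto N atTop atTop) :
    Tendsto (fun j => rate n d (N j)) atTop (𝓝 0) := by
  have hR : Tendsto (fun j => (N j : ℝ)) atTop atTop := tendsto_natCast_atTop_atTop.comp hN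
  have h1 : Tendsto (fun j => 3 * (d : ℝ) / N j) atTop (𝓝 0) := tendsto_const_nhds.div_atTop hR
  have h2 := ((tendsto_rpow_neg_atTop (show (0 : ℝ) < 1 / 8 by norm_num)).comp hR).const_mul
    (14 * (n : ℝ))
  simpa [rate] using h1.add h2

/-- Haar invariance gives the rotation identity. -/
theorem rot : RotStmt := by
  intro K A Q hQ n l l' k k' F hF
  let cast : (Fin (K + 2) → Fin (n + 1) → Fin (n + 1) → ℝ) → Fin (K + 2) → Fin n → Fin n → ℝ :=
    fun R g a b => R g a.castSucc b.castSucc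
  let E := relR k.succ k'.succ (A.c k) (A.c k') (A.a k - A.a k') l l'
  show Tendsto (fun j => Q.mean j (n + 1) fun R => F (cast R) * E R) atTop (𝓝 0)
  rcases eq_or_ne k k' with rfl | hk
  · refine tendsto_const_nhds.congr fun j => Eq.symm ?_
    have : (fun R => F (cast R) * E R) = fun _ => (0 : ℝ) := funext fun R => by simp [E, relR]
    show Q.mean j (n + 1) (fun R => F (cast R) * E R) = 0
    rw [this]
    simp [SysSeq.mean, Sys.ovMean, rav]
  set T : ℕ → ((Fin (K + 2) → Fin n → Fin n → ℝ) → ℝ) → ℝ :=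
    fun j f => Q.mean j (n + 1) fun R => f (cast R) * E R
  show Tendsto (fun j => T j F) atTop (𝓝 0)
  have hEc : Continuous E := continuous_relR ..
  set ME := |A.c k| + |A.c k'| + |A.a k - A.a k'| * (2 * n)
  have hME : ∀ R, (∀ g a b, |R g a b| ≤ 1) → |E R| ≤ ME := fun R hR => abs_relR_le _ _ _ _ _ _ _ hR
  have hbd : ∀ f : (Fin (K + 2) → Fin n → Fin n → ℝ) → ℝ, Continuous f → ∃ M, ∀ R,
      (∀ g a b, |R g a b| ≤ 1) → |f (cast R) * E R| ≤ M := fun f hf => by
    obtain ⟨M, hM⟩ := exists_cube_bound hf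
    refine ⟨M * ME, fun R hR => ?_⟩
    rw [abs_mul]
    refine mul_le_mul (hM (cast R) fun g a b => hR _ _ _) (hME R hR) (abs_nonneg _) ?_
    exact (abs_nonneg _).trans (hM (cast R) fun g a b => hR _ _ _)
  have hlin : ∀ j (f f' : (Fin (K + 2) → Fin n → Fin n → ℝ) → ℝ), Continuous f → Continuous f' →
      ∀ c : ℝ, T j (fun R => f R + c * f' R) = T j f + c * T j f' := by
    intro j f f' hf hf' c
    obtain ⟨M, hM⟩ := hbd f hf
    obtain ⟨M', hM'⟩ := hbd f' hf'
    simp only [T, SysSeq.mean]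
    rw [← ovMean_lin (P := Q.sys j) (s := scale (Q.N j)) (x := Q.x j) (B := Q.B j)
      (F := fun R => f (cast R) * E R) (F' := fun R => f' (cast R) * E R) rfl
      ((hf.comp (by fun_prop)).mul hEc) ((hf'.comp (by fun_prop)).mul hEc) hM hM' c]
    exact congrArg _ (funext fun R => by ring)
  have hmono : ∀ ls, Tendsto (fun j => T j (monR ls)) atTop (𝓝 0) := by
    intro ls
    have h0 : Tendsto (fun j => rate n ls.length (Q.N j) + (|A.c k - frac (Q.w j) k| +
        |A.c k' - frac (Q.w j) k'| + |(A.a k - A.a k') - (Q.a j k - Q.a j k')| * (2 * n)))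
        atTop (𝓝 0) := by
      have ha := ((tendsto_const_nhds (x := A.c k)).sub (hQ.fracs k)).abs
      have hb := ((tendsto_const_nhds (x := A.c k')).sub (hQ.fracs k')).abs
      have hc := (((tendsto_const_nhds (x := A.a k - A.a k')).sub
        ((hQ.atoms k).sub (hQ.atoms k'))).abs).mul_const (2 * (n : ℝ))
      simpa using (tendsto_rate n ls.length hQ.size).add ((ha.add hb).add hc)
    refine squeeze_zero_norm (fun j => ?_) h0
    rw [Real.norm_eq_abs]
    exact mono_bound (hQ.pos j) (hQ.box j) A l l' hk ls le_rfl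
  have hadj : ∀ f ∈ Algebra.adjoin ℝ (Set.range (coord (G := K + 2) (n := n))),
      Tendsto (fun j => T j f) atTop (𝓝 0) := by
    intro f hf
    rw [← Subalgebra.mem_toSubmodule, Algebra.adjoin_eq_span] at hf
    induction hf using Submodule.span_induction with
    | mem y hy =>
      obtain ⟨ls, hls⟩ := exists_word hy
      rw [show ((y : C(Fin (K + 2) → Fin n → Fin n → ℝ, ℝ)) : _ → ℝ) = monR ls from funext hls]
      exact hmono ls
    | zero => simp [T, SysSeq.mean, Sys.ovMean, rav]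
    | add f g _ _ hf hg =>
      refine (by simpa using hf.add hg : Tendsto (fun j => T j f + T j g) atTop (𝓝 0)).congr fun j => ?_
      have := hlin j f g f.continuous g.continuous 1
      simp only [one_mul] at this
      exact this.symm
    | smul c f _ hf =>
      refine (by simpa using hf.const_mul c : Tendsto (fun j => c * T j f) atTop (𝓝 0)).congr fun j => ?_
      simp only [T, SysSeq.mean, Sys.ovMean, ← integral_const_mul, ← rav_const_mul]
      exact integral_congr_ae (ae_of_all _ fun z => congrArg _ (funext fun σ => by simp; ring))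
  rw [Metric.tendsto_atTop]
  intro ε hε
  set δ := ε / (2 * (ME + 1))
  have hME0 : 0 ≤ ME := by positivity
  have hδ : 0 < δ := by positivity
  obtain ⟨p, hp, hpb⟩ := ContinuousMap.exists_mem_subalgebra_near_continuous_of_isCompact_of_separatesPoints
    (separates_coord (G := K + 2) (n := n)) ⟨F, hF⟩
    (isCompact_univ_pi fun _ : Fin (K + 2) => isCompact_univ_pi fun _ : Fin n =>
      isCompact_univ_pi fun _ : Fin n => isCompact_Icc (a := (-1 : ℝ)) (b := 1)) hδ
  obtain ⟨j₀, hj₀⟩ := Metric.tendsto_atTop.1 (hadj p hp) (ε / 2) (by linarith)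
  refine ⟨j₀, fun j hj => ?_⟩
  have h1 := hj₀ j hj
  rw [Real.dist_eq, sub_zero] at h1 ⊢
  have h2 : |T j (fun R => F R + -1 * p R)| ≤ δ * ME := by
    refine abs_ovMean_le (P := Q.sys j) rfl fun R hR => ?_
    rw [abs_mul]
    refine mul_le_mul ?_ (hME R hR) (abs_nonneg _) hδ.le
    have := (hpb (cast R) fun g _ a _ b _ => abs_le.1 (hR g a.castSucc b.castSucc)).le
    rw [Real.norm_eq_abs, abs_sub_comm] at this
    simpa [sub_eq_add_neg] using this
  rw [hlin j F p hF p.continuous (-1)] at h2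
  have h3 : δ * ME ≤ ε / 2 := by
    have : δ * (ME + 1) = ε / 2 := by simp only [δ]; field_simp
    linarith [hδ.le]
  calc |T j F| = |(T j F + -1 * T j p) + T j p| := by congr 1; ring
    _ ≤ _ := abs_add_le _ _
    _ < ε := by linarith

end Vale.Agent.P166.Haar2.Rot

namespace Vale.Agent.P166.Haar2

/-- Module M9. -/
theorem rotIdentity : RotStmt := Rot.rot

end Vale.Agent.P166.Haar2
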