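import Mathlib
import Vale.Agent.P166.Haar

/-!
Plane rotations of the coordinates, as elements of the orthogonal group.
-/

noncomputable section

open MeasureTheory
open scoped BigOperators

namespace Vale.Agent.P166.Haar2.Rot

variable {N : ℕ}

/-- The rotation by `θ` in the plane of `a` and `b`. -/
def turn (a b : Fin N) (θ : ℝ) (v : Fin N → ℝ) (i : Fin N) : ℝ :=
  if i = a then Real.cos θ * v a - Real.sin θ * v b
  else if i = b then Real.sin θ * v a + Real.cos θ * v b else v i

/-- Its generator. -/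
def gen (a b : Fin N) (v : Fin N → ℝ) (i : Fin N) : ℝ :=
  if i = a then -v b else if i = b then v a else 0

/-- The rotation in the orthogonal group: a product of two reflections. -/
def turnOG (a b : Fin N) (θ : ℝ) : OG N :=
  refl (ev b) * refl (Real.sin (θ / 2) • ev a + Real.cos (θ / 2) • ev b)

theorem act_turnOG {a b : Fin N} (hab : a ≠ b) (θ : ℝ) (v : Fin N → ℝ) :
    act (turnOG a b θ) v = turn a b θ v := by
  set c := Real.cos (θ / 2) with hc
  set s := Real.sin (θ / 2) with hs
  have hsc : s ^ 2 + c ^ 2 = 1 := Real.sin_sq_add_cos_sq _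
  set w := s • ev a + c • ev b with hw
  have hww : w ⬝ᵥ w = 1 := by
    simp [hw, add_dotProduct, ev_dot, ev, hab, hab.symm]
    linarith [hsc]
  have hwv : w ⬝ᵥ v = s * v a + c * v b := by
    simp [hw, add_dotProduct, ev_dot]
  have hbb : ev b ⬝ᵥ ev b = (1 : ℝ) := by simp [ev_dot, ev]
  have e1 : Real.cos θ = c ^ 2 - s ^ 2 := by
    rw [hc, hs, show θ = 2 * (θ / 2) by ring, Real.cos_two_mul']; ring_nf
  have e2 : Real.sin θ = 2 * s * c := by
    rw [hc, hs, ← Real.sin_two_mul]; ring_nf
  funext i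
  rw [turnOG, act_mul, act_refl, act_refl, ← hw, hbb, hww, hwv, ev_dot]
  simp only [turn, hw, Pi.sub_apply, Pi.add_apply, Pi.smul_apply, smul_eq_mul, ev, div_one, e1, e2]
  rcases eq_or_ne i a with rfl | ha
  · simp [hab, hab.symm]
    linear_combination (-v i) * hsc
  · rcases eq_or_ne i b with rfl | hb
    · simp [hab, hab.symm]
      linear_combination v i * hsc
    · simp [ha, hb]

theorem turn_zero (a b : Fin N) (v : Fin N → ℝ) : turn a b 0 v = v := by
  funext i
  rcases eq_or_ne i a with rfl | ha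
  · simp [turn]
  · rcases eq_or_ne i b with rfl | hb
    · simp [turn, ha]
    · simp [turn, ha, hb]

theorem hasDerivAt_turn {a b : Fin N} (hab : a ≠ b) (θ : ℝ) (v : Fin N → ℝ) (i : Fin N) :
    HasDerivAt (fun t => turn a b t v i) (gen a b (turn a b θ v) i) θ := by
  rcases eq_or_ne i a with rfl | ha
  · simp only [turn, gen, if_pos, if_neg hab.symm]
    refine (((Real.hasDerivAt_cos θ).mul_const (v i)).sub
      ((Real.hasDerivAt_sin θ).mul_const (v b))).congr_deriv ?_
    ring
  · rcases eq_or_ne i b with rfl | hb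
    · simp only [turn, gen, if_pos, if_neg ha]
      refine (((Real.hasDerivAt_sin θ).mul_const (v a)).add
        ((Real.hasDerivAt_cos θ).mul_const (v i))).congr_deriv ?_
      ring
    · simp only [turn, gen, if_neg ha, if_neg hb]
      exact hasDerivAt_const θ _

theorem abs_gen_le (a b : Fin N) (v : Fin N → ℝ) {R : ℝ} (hR : ∀ i, |v i| ≤ R) (i : Fin N) :
    |gen a b v i| ≤ R := by
  unfold gen
  split_ifs
  · rw [abs_neg]; exact hR b
  · exact hR a
  · rw [abs_zero]; exact (abs_nonneg _).trans (hR i)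

/-- The combination of generators with weights `α a β b` over two blocks. -/
def mix (S T : Finset (Fin N)) (α β v : Fin N → ℝ) (i : Fin N) : ℝ :=
  ∑ a ∈ S, ∑ b ∈ T, α a * β b * gen a b v i

theorem mix_apply {S T : Finset (Fin N)} (hST : Disjoint S T) (α β v : Fin N → ℝ) (i : Fin N) :
    mix S T α β v i = (if i ∈ S then -(α i * ∑ b ∈ T, β b * v b) else 0) +
      if i ∈ T then β i * ∑ a ∈ S, α a * v a else 0 := by
  by_cases hS : i ∈ S
  · have hT : i ∉ T := Finset.disjoint_left.1 hST hS
    rw [if_pos hS, if_neg hT, add_zero, mix, Finset.sum_eq_single_of_mem i hS]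
    · simp only [gen, if_pos, mul_neg, Finset.sum_neg_distrib, Finset.mul_sum, mul_assoc]
    · intro a _ hai
      refine Finset.sum_eq_zero fun b hb => ?_
      rw [gen, if_neg hai.symm, if_neg (fun h : i = b => hT (h ▸ hb)), mul_zero]
  · rw [if_neg hS, zero_add]
    by_cases hT : i ∈ T
    · rw [if_pos hT, mix, Finset.mul_sum]
      refine Finset.sum_congr rfl fun a ha => ?_
      rw [Finset.sum_eq_single_of_mem i hT]
      · rw [gen, if_neg (fun h : i = a => hS (h ▸ ha)), if_pos rfl]; ring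
      · intro b _ hbi
        rw [gen, if_neg (fun h : i = a => hS (h ▸ ha)), if_neg hbi.symm, mul_zero]
    · rw [if_neg hT, mix]
      refine Finset.sum_eq_zero fun a ha => Finset.sum_eq_zero fun b hb => ?_
      rw [gen, if_neg (fun h : i = a => hS (h ▸ ha)), if_neg (fun h : i = b => hT (h ▸ hb)),
        mul_zero]

theorem sq_sum_mul_le (S : Finset (Fin N)) (α v : Fin N → ℝ) :
    (∑ a ∈ S, α a * v a) ^ 2 ≤ (∑ i, α i ^ 2) * ∑ i, v i ^ 2 :=
  (Finset.sum_mul_sq_le_sq_mul_sq S α v).trans (mul_le_mul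
    (Finset.sum_le_sum_of_subset_of_nonneg (Finset.subset_univ _) fun _ _ _ => sq_nonneg _)
    (Finset.sum_le_sum_of_subset_of_nonneg (Finset.subset_univ _) fun _ _ _ => sq_nonneg _)
    (Finset.sum_nonneg fun _ _ => sq_nonneg _) (Finset.sum_nonneg fun _ _ => sq_nonneg _))

theorem mix_sq_le {S T : Finset (Fin N)} (hST : Disjoint S T) (α β v : Fin N → ℝ) :
    ∑ i, mix S T α β v i ^ 2 ≤ 2 * ((∑ i, α i ^ 2) * (∑ i, β i ^ 2) * ∑ i, v i ^ 2) := by
  have h : ∀ i, mix S T α β v i ^ 2 ≤
      α i ^ 2 * (∑ b ∈ T, β b * v b) ^ 2 + β i ^ 2 * (∑ a ∈ S, α a * v a) ^ 2 := fun i => by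
    rw [mix_apply hST]
    by_cases hS : i ∈ S
    · rw [if_pos hS, if_neg (Finset.disjoint_left.1 hST hS), add_zero, neg_sq, mul_pow]
      exact le_add_of_nonneg_right (by positivity)
    · rw [if_neg hS, zero_add]
      split_ifs
      · rw [mul_pow]; exact le_add_of_nonneg_left (by positivity)
      · simp only [ne_eq, OfNat.ofNat_ne_zero, not_false_eq_true, zero_pow]; positivity
  refine (Finset.sum_le_sum fun i _ => h i).trans ?_
  rw [Finset.sum_add_distrib, ← Finset.sum_mul, ← Finset.sum_mul]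
  have hA : 0 ≤ ∑ i, α i ^ 2 := Finset.sum_nonneg fun _ _ => sq_nonneg _
  have hB : 0 ≤ ∑ i, β i ^ 2 := Finset.sum_nonneg fun _ _ => sq_nonneg _
  have h1 := mul_le_mul_of_nonneg_left (sq_sum_mul_le T β v) hA
  have h2 := mul_le_mul_of_nonneg_left (sq_sum_mul_le S α v) hB
  linarith

end Vale.Agent.P166.Haar2.Rot
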