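import Vale.Agent.P166.Haar2.Sys
import Vale.Agent.P166.Haar2.Rot.Turn
import Vale.Agent.P168.Limit.GibbsLemmas

/-!
Overlaps, monomials, energies and Gibbs averages along a curve of rotated configurations.
-/

noncomputable section

open MeasureTheory
open scoped BigOperators

namespace Vale.Agent.P166.Haar2.Rot

open Vale.Agent.P168.Limit (gw gav rav)

variable {N G L n : ℕ} (P : Sys N G)

/-- The overlap of two vectors in block `g`. -/
def ovV (g : Fin G) (v u : Fin N → ℝ) : ℝ := (∑ i ∈ P.S g, v i * u i) / P.ν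

/-- Its derivative in the directions `w, z`. -/
def dov (g : Fin G) (v u w z : Fin N → ℝ) : ℝ := (∑ i ∈ P.S g, (w i * u i + v i * z i)) / P.ν

/-- A product of overlaps of replicas. -/
def monV : List (Fin G × Fin n × Fin n) → (Fin n → Fin N → ℝ) → ℝ
  | [], _ => 1
  | t :: l, V => ovV P t.1 (V t.2.1) (V t.2.2) * monV l V

/-- Its derivative. -/
def dmon : List (Fin G × Fin n × Fin n) → (Fin n → Fin N → ℝ) → (Fin n → Fin N → ℝ) → ℝ
  | [], _, _ => 0
  | t :: l, V, W => dov P t.1 (V t.2.1) (V t.2.2) (W t.2.1) (W t.2.2) * monV P l V +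
      ovV P t.1 (V t.2.1) (V t.2.2) * dmon l V W

/-- One coordinate of a monomial feature of a vector. -/
def featV (v : Fin N → ℝ) (c : PIdx G N L) : ℝ :=
  ∏ p : Word G c.1.val, if c.2 p ∈ P.S p.1 then v (c.2 p) / Real.sqrt P.ν else 0

/-- Its derivative in the direction `w`. -/
def dfeat (v w : Fin N → ℝ) (c : PIdx G N L) : ℝ :=
  ∑ p : Word G c.1.val, (∏ q ∈ Finset.univ.erase p,
      if c.2 q ∈ P.S q.1 then v (c.2 q) / Real.sqrt P.ν else 0) *
    if c.2 p ∈ P.S p.1 then w (c.2 p) / Real.sqrt P.ν else 0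

/-- The energy of a vector. -/
def hamV (s : ℝ) (x : Fin L → ℝ) (J : PIdx G N L → ℝ) (v : Fin N → ℝ) : ℝ :=
  1 / 2 * (∑ i, P.lam i * v i ^ 2) +
    ∑ c : PIdx G N L, J c * (s * x c.1 * coef G c.1.val * featV P v c)

/-- The derivative of the quadratic energy. -/
def denV (v w : Fin N → ℝ) : ℝ := ∑ i, P.lam i * (v i * w i)

/-- The derivative of the perturbation. -/
def dpert (s : ℝ) (x : Fin L → ℝ) (J : PIdx G N L → ℝ) (v w : Fin N → ℝ) : ℝ :=
  ∑ c : PIdx G N L, J c * (s * x c.1 * coef G c.1.val * dfeat P v w c)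

theorem ham0_eq (s : ℝ) (x : Fin L → ℝ) (U : OG N) (J : PIdx G N L → ℝ)
    (σ : Vale.Agent.P157.Parisi.Cube N) : P.ham0 s x U J σ = hamV P s x J (rot U σ) := rfl

theorem ovs_eq (U : OG N) (σ : Fin n → Vale.Agent.P157.Parisi.Cube N) (g : Fin G) (a b : Fin n) :
    P.ovs U σ g a b = ovV P g (rot U (σ a)) (rot U (σ b)) := rfl

section curve

variable {v u : ℝ → Fin N → ℝ} {w z : Fin N → ℝ} {t : ℝ}

theorem hasDerivAt_ovV (g : Fin G) (hv : ∀ i, HasDerivAt (fun r => v r i) (w i) t)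
    (hu : ∀ i, HasDerivAt (fun r => u r i) (z i) t) :
    HasDerivAt (fun r => ovV P g (v r) (u r)) (dov P g (v t) (u t) w z) t :=
  (HasDerivAt.fun_sum fun i _ => (hv i).mul (hu i)).div_const _

theorem hasDerivAt_monV {V : ℝ → Fin n → Fin N → ℝ} {W : Fin n → Fin N → ℝ}
    (hV : ∀ q i, HasDerivAt (fun r => V r q i) (W q i) t) :
    ∀ l : List (Fin G × Fin n × Fin n),
      HasDerivAt (fun r => monV P l (V r)) (dmon P l (V t) W) t
  | [] => hasDerivAt_const t 1
  | p :: l => (hasDerivAt_ovV P p.1 (hV p.2.1) (hV p.2.2)).mul (hasDerivAt_monV hV l)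

theorem hasDerivAt_featV (c : PIdx G N L) (hv : ∀ i, HasDerivAt (fun r => v r i) (w i) t) :
    HasDerivAt (fun r => featV P (v r) c) (dfeat P (v t) w c) t := by
  have h : ∀ p ∈ (Finset.univ : Finset (Word G c.1.val)),
      HasDerivAt (fun r => if c.2 p ∈ P.S p.1 then v r (c.2 p) / Real.sqrt P.ν else 0)
        (if c.2 p ∈ P.S p.1 then w (c.2 p) / Real.sqrt P.ν else 0) t := fun p _ => by
    by_cases hp : c.2 p ∈ P.S p.1
    · simp only [if_pos hp]; exact (hv _).div_const _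
    · simp only [if_neg hp]; exact hasDerivAt_const t 0
  simpa [featV, dfeat, smul_eq_mul] using HasDerivAt.fun_finsetProd h

theorem hasDerivAt_hamV (s : ℝ) (x : Fin L → ℝ) (J : PIdx G N L → ℝ)
    (hv : ∀ i, HasDerivAt (fun r => v r i) (w i) t) :
    HasDerivAt (fun r => hamV P s x J (v r))
      (denV P (v t) w + dpert P s x J (v t) w) t := by
  have h1 := (HasDerivAt.fun_sum (u := Finset.univ) fun i _ =>
    ((hv i).pow 2).const_mul (P.lam i)).const_mul (1 / 2 : ℝ)
  have h2 := HasDerivAt.fun_sum (u := Finset.univ) fun (c : PIdx G N L) _ =>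
    ((hasDerivAt_featV P c hv).const_mul (s * x c.1 * coef G c.1.val)).const_mul (J c)
  refine (h1.add h2).congr_deriv ?_
  rw [denV, dpert, Finset.mul_sum]
  congr 1
  refine Finset.sum_congr rfl fun i _ => ?_
  simp; ring

end curve

/-! ### Linearity in the direction -/

variable {ι : Type*} (I : Finset ι) (e : ι → ℝ)

theorem dov_sum (g : Fin G) (v u : Fin N → ℝ) (w z : ι → Fin N → ℝ) :
    ∑ j ∈ I, e j * dov P g v u (w j) (z j) =
      dov P g v u (fun i => ∑ j ∈ I, e j * w j i) (fun i => ∑ j ∈ I, e j * z j i) := by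
  simp only [dov, mul_div, ← Finset.sum_div, Finset.mul_sum]
  rw [Finset.sum_comm]
  refine congrArg (· / P.ν) (Finset.sum_congr rfl fun i _ => ?_)
  rw [Finset.sum_mul, ← Finset.sum_add_distrib]
  exact Finset.sum_congr rfl fun j _ => by ring

theorem dmon_sum (V : Fin n → Fin N → ℝ) (W : ι → Fin n → Fin N → ℝ) :
    ∀ l : List (Fin G × Fin n × Fin n), ∑ j ∈ I, e j * dmon P l V (W j) =
      dmon P l V (fun q i => ∑ j ∈ I, e j * W j q i)
  | [] => by simp [dmon]
  | t :: l => by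
    have ih := dmon_sum V W l
    rw [dmon, ← dov_sum, ← ih, Finset.sum_mul, Finset.mul_sum, ← Finset.sum_add_distrib]
    exact Finset.sum_congr rfl fun j _ => by rw [dmon]; ring

theorem dfeat_sum (v : Fin N → ℝ) (w : ι → Fin N → ℝ) (c : PIdx G N L) :
    ∑ j ∈ I, e j * dfeat P v (w j) c = dfeat P v (fun i => ∑ j ∈ I, e j * w j i) c := by
  simp only [dfeat, Finset.mul_sum]
  rw [Finset.sum_comm]
  refine Finset.sum_congr rfl fun p _ => ?_
  by_cases hp : c.2 p ∈ P.S p.1
  · simp only [if_pos hp, Finset.sum_div, Finset.mul_sum]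
    exact Finset.sum_congr rfl fun j _ => by ring
  · simp [if_neg hp]

theorem denV_sum (v : Fin N → ℝ) (w : ι → Fin N → ℝ) :
    ∑ j ∈ I, e j * denV P v (w j) = denV P v (fun i => ∑ j ∈ I, e j * w j i) := by
  simp only [denV, Finset.mul_sum]
  rw [Finset.sum_comm]
  exact Finset.sum_congr rfl fun i _ => Finset.sum_congr rfl fun j _ => by ring

theorem dpert_sum (s : ℝ) (x : Fin L → ℝ) (J : PIdx G N L → ℝ) (v : Fin N → ℝ)
    (w : ι → Fin N → ℝ) :
    ∑ j ∈ I, e j * dpert P s x J v (w j) =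
      dpert P s x J v (fun i => ∑ j ∈ I, e j * w j i) := by
  simp only [dpert, ← dfeat_sum, Finset.mul_sum]
  rw [Finset.sum_comm]
  exact Finset.sum_congr rfl fun c _ => Finset.sum_congr rfl fun j _ => by ring

/-! ### Gibbs averages -/

variable {X : Type*} [Fintype X] [Nonempty X]

theorem hasDerivAt_gw_curve {H : ℝ → X → ℝ} {H' : X → ℝ} {t : ℝ}
    (hH : ∀ y, HasDerivAt (fun r => H r y) (H' y) t) (x : X) :
    HasDerivAt (fun r => gw (H r) x) (gw (H t) x * (H' x - gav (H t) H')) t := by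
  have hs := HasDerivAt.fun_sum (u := Finset.univ) fun y _ => (hH y).exp
  have hZ : (∑ y, Real.exp (H t y)) ≠ 0 :=
    (Finset.sum_pos (fun y _ => Real.exp_pos _) Finset.univ_nonempty).ne'
  refine ((hH x).exp.div hs hZ).congr_deriv ?_
  have hg : gav (H t) H' = (∑ y, Real.exp (H t y) * H' y) / ∑ y, Real.exp (H t y) := by
    simp only [gav, gw, Finset.sum_div]
    exact Finset.sum_congr rfl fun y _ => by ring
  rw [hg, gw]
  field_simp

theorem hasDerivAt_rav_curve {H : ℝ → X → ℝ} {H' : X → ℝ} {F : ℝ → (Fin n → X) → ℝ}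
    {F' : (Fin n → X) → ℝ} {t : ℝ} (hH : ∀ y, HasDerivAt (fun r => H r y) (H' y) t)
    (hF : ∀ σ, HasDerivAt (fun r => F r σ) (F' σ) t) :
    HasDerivAt (fun r => rav n (H r) (F r))
      (rav n (H t) (fun σ => F' σ + F t σ * ∑ i, H' (σ i)) -
        n * rav n (H t) (F t) * gav (H t) H') t := by
  refine (HasDerivAt.fun_sum (u := Finset.univ) fun σ _ =>
    (HasDerivAt.fun_finsetProd fun i _ => hasDerivAt_gw_curve hH (σ i)).mul (hF σ)).congr_deriv ?_
  simp only [rav]
  rw [Finset.mul_sum, Finset.sum_mul, ← Finset.sum_sub_distrib]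
  refine Finset.sum_congr rfl fun σ _ => ?_
  have e1 : ∀ i : Fin n, (∏ j ∈ Finset.univ.erase i, gw (H t) (σ j)) •
      (gw (H t) (σ i) * (H' (σ i) - gav (H t) H')) =
        (∏ j, gw (H t) (σ j)) * (H' (σ i) - gav (H t) H') := fun i => by
    rw [← Finset.prod_erase_mul _ _ (Finset.mem_univ i), smul_eq_mul, mul_assoc]
  rw [Finset.sum_congr rfl fun i _ => e1 i, ← Finset.mul_sum, Finset.sum_sub_distrib,
    Finset.sum_const, Finset.card_fin, nsmul_eq_mul]
  ring

end Vale.Agent.P166.Haar2.Rot
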