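import Vale.Agent.P166.Haar2.Rot.Field

/-!
The derivative of one pair average under a plane rotation.
-/

noncomputable section

open MeasureTheory ProbabilityTheory
open scoped BigOperators

namespace Vale.Agent.P166.Haar2.Rot

open Vale.Agent.P157 (gam)
open Vale.Agent.P157.Parisi (Cube)
open Vale.Agent.P168.Limit (gw gav rav abs_rav_le abs_gav_le_of_le gw_nonneg)

variable {N G L n : ℕ} (P : Sys N G) (s : ℝ) (x : Fin L → ℝ) (B : RBase N)

/-- The tested product. -/
def pairF (ls : List (Fin G × Fin n × Fin n)) (l l' : Fin n) (a b : Fin N) (U : OG N)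
    (σ : Fin n → Cube N) : ℝ :=
  monV P ls (fun q => rot U (σ q)) * (rot U (σ l) a * rot U (σ l') b)

/-- The derivative of the tested product. -/
def pairF' (ls : List (Fin G × Fin n × Fin n)) (l l' : Fin n) (a b : Fin N) (U : OG N)
    (σ : Fin n → Cube N) : ℝ :=
  dmon P ls (fun q => rot U (σ q)) (fun q => gen a b (rot U (σ q))) *
      (rot U (σ l) a * rot U (σ l') b) +
    monV P ls (fun q => rot U (σ q)) *
      (gen a b (rot U (σ l)) a * rot U (σ l') b + rot U (σ l) a * gen a b (rot U (σ l')) b)

/-- The derivative of the energy. -/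
def pairH (a b : Fin N) (U : OG N) (J : PIdx G N L → ℝ) (σ : Cube N) : ℝ :=
  denV P (rot U σ) (gen a b (rot U σ)) + dpert P s x J (rot U σ) (gen a b (rot U σ))

/-- The derivative of the average. -/
def pairD (ls : List (Fin G × Fin n × Fin n)) (l l' : Fin n) (a b : Fin N) (z : Dz G L B) : ℝ :=
  rav n (P.ham s x B z) (fun σ => pairF' P ls l l' a b z.1 σ +
      pairF P ls l l' a b z.1 σ * ∑ i, pairH P s x a b z.1 z.2.1 (σ i)) -
    n * rav n (P.ham s x B z) (pairF P ls l l' a b z.1) *
      gav (P.ham s x B z) (pairH P s x a b z.1 z.2.1)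

instance dzLaw_prob (G L : ℕ) (B : RBase N) : IsProbabilityMeasure (dzLaw G L B) := by
  unfold dzLaw; infer_instance

theorem rot_turn {a b : Fin N} (hab : a ≠ b) (θ : ℝ) (U : OG N) (σ : Cube N) :
    rot (turnOG a b θ * U) σ = turn a b θ (rot U σ) := by
  rw [rot, rot, act_mul, act_turnOG hab]

theorem measurable_rot (σ : Cube N) (i : Fin N) : Measurable fun U : OG N => rot U σ i :=
  ((continuous_apply i).comp (continuous_act (spin σ))).measurable

theorem measurable_ham (σ : Cube N) : Measurable fun z : Dz G L B => P.ham s x B z σ := by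
  refine ((B.meas σ).comp (measurable_snd.comp measurable_snd)).add ?_
  refine Measurable.add ?_ ?_
  · refine measurable_const.mul (Finset.measurable_sum _ fun i _ => ?_)
    exact (((measurable_rot σ i).comp measurable_fst).pow_const 2).const_mul _
  · refine Finset.measurable_sum _ fun c _ => ?_
    refine ((measurable_pi_apply c).comp (measurable_fst.comp measurable_snd)).mul ?_
    refine measurable_const.mul (Finset.measurable_prod _ fun p _ => ?_)
    by_cases h : c.2 p ∈ P.S p.1
    · simp only [if_pos h]; exact ((measurable_rot σ _).comp measurable_fst).div_const _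
    · simp only [if_neg h]; exact measurable_const

theorem measurable_gw' (σ : Cube N) : Measurable fun z : Dz G L B => gw (P.ham s x B z) σ :=
  (measurable_ham P s x B σ).exp.div (Finset.measurable_sum _ fun τ _ => (measurable_ham P s x B τ).exp)

theorem measurable_rav' {F : Dz G L B → (Fin n → Cube N) → ℝ}
    (hF : ∀ σ, Measurable fun z => F z σ) :
    Measurable fun z => rav n (P.ham s x B z) (F z) :=
  Finset.measurable_sum _ fun σ _ =>
    (Finset.measurable_prod _ fun i _ => measurable_gw' P s x B (σ i)).mul (hF σ)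

theorem measurable_gav' {F : Dz G L B → Cube N → ℝ} (hF : ∀ σ, Measurable fun z => F z σ) :
    Measurable fun z => gav (P.ham s x B z) (F z) :=
  Finset.measurable_sum _ fun σ _ => (measurable_gw' P s x B σ).mul (hF σ)

theorem measurable_monV (ls : List (Fin G × Fin n × Fin n)) (σ : Fin n → Cube N) :
    Measurable fun z : Dz G L B => monV P ls (fun q => rot z.1 (σ q)) := by
  induction ls with
  | nil => exact measurable_const
  | cons t ls ih =>
    refine Measurable.mul ?_ ih
    exact (Finset.measurable_sum _ fun i _ => ((measurable_rot _ i).comp measurable_fst).mul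
      ((measurable_rot _ i).comp measurable_fst)).div_const _

theorem measurable_gen (a b : Fin N) (σ : Cube N) (i : Fin N) :
    Measurable fun U : OG N => gen a b (rot U σ) i := by
  unfold gen
  split_ifs
  · exact (measurable_rot σ b).neg
  · exact measurable_rot σ a
  · exact measurable_const

theorem measurable_pairF (ls : List (Fin G × Fin n × Fin n)) (l l' : Fin n) (a b : Fin N)
    (σ : Fin n → Cube N) : Measurable fun z : Dz G L B => pairF P ls l l' a b z.1 σ :=
  (measurable_monV P B ls σ).mul (((measurable_rot _ a).comp measurable_fst).mul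
    ((measurable_rot _ b).comp measurable_fst))

theorem measurable_pairF' (ls : List (Fin G × Fin n × Fin n)) (l l' : Fin n) (a b : Fin N)
    (σ : Fin n → Cube N) : Measurable fun z : Dz G L B => pairF' P ls l l' a b z.1 σ := by
  have hr : ∀ (τ : Cube N) (i : Fin N), Measurable fun z : Dz G L B => rot z.1 τ i :=
    fun τ i => (measurable_rot τ i).comp measurable_fst
  have hg : ∀ (τ : Cube N) (i : Fin N), Measurable fun z : Dz G L B => gen a b (rot z.1 τ) i :=
    fun τ i => (measurable_gen a b τ i).comp measurable_fst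
  have hd : ∀ ls : List (Fin G × Fin n × Fin n), Measurable fun z : Dz G L B =>
      dmon P ls (fun q => rot z.1 (σ q)) (fun q => gen a b (rot z.1 (σ q))) := by
    intro ls
    induction ls with
    | nil => exact measurable_const
    | cons t ls ih =>
      refine Measurable.add (Measurable.mul ?_ (measurable_monV P B ls σ)) (Measurable.mul ?_ ih)
      · exact (Finset.measurable_sum _ fun i _ => ((hg _ i).mul (hr _ i)).add
          ((hr _ i).mul (hg _ i))).div_const _
      · exact (Finset.measurable_sum _ fun i _ => (hr _ i).mul (hr _ i)).div_const _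
  exact ((hd ls).mul ((hr _ a).mul (hr _ b))).add ((measurable_monV P B ls σ).mul
    (((hg _ a).mul (hr _ b)).add ((hr _ a).mul (hg _ b))))

theorem measurable_pairH (a b : Fin N) (σ : Cube N) :
    Measurable fun z : Dz G L B => pairH P s x a b z.1 z.2.1 σ := by
  have hr : ∀ i : Fin N, Measurable fun z : Dz G L B => rot z.1 σ i :=
    fun i => (measurable_rot σ i).comp measurable_fst
  have hg : ∀ i : Fin N, Measurable fun z : Dz G L B => gen a b (rot z.1 σ) i :=
    fun i => (measurable_gen a b σ i).comp measurable_fst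
  refine Measurable.add (Finset.measurable_sum _ fun i _ => ((hr i).mul (hg i)).const_mul _) ?_
  refine Finset.measurable_sum _ fun c _ => ?_
  refine ((measurable_pi_apply c).comp (measurable_fst.comp measurable_snd)).mul ?_
  refine measurable_const.mul (Finset.measurable_sum _ fun p _ => Measurable.mul ?_ ?_)
  · refine Finset.measurable_prod _ fun q _ => ?_
    by_cases h : c.2 q ∈ P.S q.1
    · simp only [if_pos h]; exact (hr _).div_const _
    · simp only [if_neg h]; exact measurable_const
  · by_cases h : c.2 p ∈ P.S p.1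
    · simp only [if_pos h]; exact (hg _).div_const _
    · simp only [if_neg h]; exact measurable_const

theorem measurable_pairD (ls : List (Fin G × Fin n × Fin n)) (l l' : Fin n) (a b : Fin N) :
    Measurable (pairD P s x B ls l l' a b) := by
  refine Measurable.sub (measurable_rav' P s x B fun σ => ?_) ?_
  · exact (measurable_pairF' P B ls l l' a b σ).add ((measurable_pairF P B ls l l' a b σ).mul
      (Finset.measurable_sum _ fun i _ => measurable_pairH P s x B a b (σ i)))
  · exact (measurable_const.mul (measurable_rav' P s x B (measurable_pairF P B ls l l' a b))).mul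
      (measurable_gav' P s x B (measurable_pairH P s x B a b))

theorem sum_rot_le (U : OG N) (σ : Cube N) : ∑ i, rot U σ i ^ 2 ≤ (N : ℝ) := (sum_rot_sq U σ).le

theorem abs_rot_le (U : OG N) (σ : Cube N) (i : Fin N) : |rot U σ i| ≤ Real.sqrt N :=
  abs_le_sqrt_ball (sum_rot_le U σ) i

variable {P}

/-- A crude bound, linear in the disorder of the perturbation. -/
theorem exists_pairD_bound (hν : P.ν = N) (hN : 0 < N) (ls : List (Fin G × Fin n × Fin n))
    (l l' : Fin n) (a b : Fin N) :
    ∃ C : ℝ, ∀ z : Dz G L B,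
      |pairD P s x B ls l l' a b z| ≤ C * (1 + ∑ c, |z.2.1 c|) := by
  set R := Real.sqrt (N : ℝ) with hR
  have hR0 : 0 ≤ R := Real.sqrt_nonneg _
  set D := 2 * (N : ℝ) * (R * R) / N
  set CF := (ls.length * D + 2) * (R * R)
  set CH0 := ∑ i, |P.lam i| * (R * R)
  set CH1 := ∑ c : PIdx G N L, |s * x c.1 * coef G c.1.val| *
    (Fintype.card (Word G c.1.val) * (R / Real.sqrt N))
  refine ⟨CF + 2 * n * (R * R) * (CH0 + CH1), fun z => ?_⟩
  set SJ := ∑ c, |z.2.1 c|
  have hSJ : 0 ≤ SJ := Finset.sum_nonneg fun _ _ => abs_nonneg _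
  have hr : ∀ σ i, |rot z.1 σ i| ≤ R := abs_rot_le z.1
  have hg : ∀ σ i, |gen a b (rot z.1 σ) i| ≤ R := fun σ => abs_gen_le a b _ (hr σ)
  have hrr : ∀ (σ τ : Cube N) i j, |rot z.1 σ i * rot z.1 τ j| ≤ R * R := fun σ τ i j => by
    rw [abs_mul]; exact mul_le_mul (hr σ i) (hr τ j) (abs_nonneg _) hR0
  have hF : ∀ σ, |pairF P ls l l' a b z.1 σ| ≤ R * R := fun σ => by
    rw [pairF, abs_mul]
    refine (mul_le_of_le_one_left (abs_nonneg _) ?_).trans (hrr _ _ a b)
    exact abs_monV_le hν (fun q => sum_rot_le z.1 (σ q)) ls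
  have hdov : ∀ (σ : Fin n → Cube N) g p q, |dov P g (rot z.1 (σ p)) (rot z.1 (σ q))
      (gen a b (rot z.1 (σ p))) (gen a b (rot z.1 (σ q)))| ≤ D := fun σ g p q => by
    rw [dov, hν, abs_div, abs_of_nonneg (N.cast_nonneg : (0 : ℝ) ≤ N)]
    refine div_le_div_of_nonneg_right ((Finset.abs_sum_le_sum_abs _ _).trans ?_) N.cast_nonneg
    refine (Finset.sum_le_sum (g := fun _ => 2 * (R * R)) fun i _ => ?_).trans ?_
    · refine (abs_add_le _ _).trans ?_
      rw [abs_mul, abs_mul]
      have h1 := mul_le_mul (hg (σ p) i) (hr (σ q) i) (abs_nonneg _) hR0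
      have h2 := mul_le_mul (hr (σ p) i) (hg (σ q) i) (abs_nonneg _) hR0
      linarith
    · rw [Finset.sum_const, nsmul_eq_mul]
      have : ((P.S g).card : ℝ) ≤ N := by
        exact_mod_cast ((Finset.card_le_univ _).trans_eq (Fintype.card_fin N))
      have := mul_le_mul_of_nonneg_right this (show 0 ≤ 2 * (R * R) by positivity)
      linarith
  have hF' : ∀ σ, |pairF' P ls l l' a b z.1 σ| ≤ CF := fun σ => by
    refine (abs_add_le _ _).trans (le_trans (add_le_add (abs_mul _ _).le (abs_mul _ _).le) ?_)
    have h1 := mul_le_mul (abs_dmon_le hν (fun q => sum_rot_le z.1 (σ q))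
        (hdov σ) (by positivity) ls) (hrr (σ l) (σ l') a b) (abs_nonneg _)
      (by positivity)
    have h2 : |gen a b (rot z.1 (σ l)) a * rot z.1 (σ l') b +
        rot z.1 (σ l) a * gen a b (rot z.1 (σ l')) b| ≤ 2 * (R * R) := by
      refine (abs_add_le _ _).trans ?_
      rw [abs_mul, abs_mul]
      have h1 := mul_le_mul (hg (σ l) a) (hr (σ l') b) (abs_nonneg _) hR0
      have h2 := mul_le_mul (hr (σ l) a) (hg (σ l') b) (abs_nonneg _) hR0
      linarith
    have h3 := mul_le_mul (abs_monV_le hν (fun q => sum_rot_le z.1 (σ q)) ls) h2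
      (abs_nonneg _) zero_le_one
    simp only [CF]
    linarith
  have hH : ∀ σ, |pairH P s x a b z.1 z.2.1 σ| ≤ (CH0 + CH1) * (1 + SJ) := fun σ => by
    have h1 : |denV P (rot z.1 σ) (gen a b (rot z.1 σ))| ≤ CH0 := by
      refine (Finset.abs_sum_le_sum_abs _ _).trans (Finset.sum_le_sum fun i _ => ?_)
      rw [abs_mul, abs_mul]
      exact mul_le_mul_of_nonneg_left (mul_le_mul (hr σ i) (hg σ i) (abs_nonneg _) hR0)
        (abs_nonneg _)
    have h2 : |dpert P s x z.2.1 (rot z.1 σ) (gen a b (rot z.1 σ))| ≤ CH1 * SJ := by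
      refine (Finset.abs_sum_le_sum_abs _ _).trans ?_
      rw [Finset.mul_sum]
      refine Finset.sum_le_sum fun c _ => ?_
      rw [abs_mul, abs_mul, mul_comm CH1]
      refine mul_le_mul_of_nonneg_left (le_trans ?_ (Finset.single_le_sum
        (fun _ _ => by positivity) (Finset.mem_univ c))) (abs_nonneg _)
      exact mul_le_mul_of_nonneg_left (abs_dfeat_le hν hN (hr σ) (hg σ) c) (abs_nonneg _)
    have h0 : 0 ≤ CH0 := by positivity
    have h0' : 0 ≤ CH1 := by positivity
    refine (abs_add_le _ _).trans ?_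
    nlinarith
  have hCH : 0 ≤ (CH0 + CH1) * (1 + SJ) := by positivity
  have k1 : |rav n (P.ham s x B z) (fun σ => pairF' P ls l l' a b z.1 σ +
      pairF P ls l l' a b z.1 σ * ∑ i, pairH P s x a b z.1 z.2.1 (σ i))| ≤
        CF + R * R * (n * ((CH0 + CH1) * (1 + SJ))) := by
    refine abs_rav_le _ _ _ fun σ => (abs_add_le _ _).trans (add_le_add (hF' σ) ?_)
    rw [abs_mul]
    refine mul_le_mul (hF σ) ((Finset.abs_sum_le_sum_abs _ _).trans ?_) (abs_nonneg _)
      (mul_nonneg hR0 hR0)
    exact (Finset.sum_le_sum fun i _ => hH (σ i)).trans_eq (by simp)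
  have k2 : |(n : ℝ) * rav n (P.ham s x B z) (pairF P ls l l' a b z.1) *
      gav (P.ham s x B z) (pairH P s x a b z.1 z.2.1)| ≤
        R * R * (n * ((CH0 + CH1) * (1 + SJ))) := by
    rw [abs_mul, abs_mul, Nat.abs_cast]
    have := mul_le_mul (abs_rav_le _ (P.ham s x B z) _ hF)
      (abs_gav_le_of_le (P.ham s x B z) hH) (abs_nonneg _) (mul_nonneg hR0 hR0)
    have := mul_le_mul_of_nonneg_left this (n.cast_nonneg : (0 : ℝ) ≤ n)
    linarith
  refine (abs_sub _ _).trans ((add_le_add k1 k2).trans ?_)
  have : CF ≤ CF * (1 + SJ) := le_mul_of_one_le_right (by positivity) (by linarith)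
  linarith

theorem integrable_absJ :
    Integrable (fun z : Dz G L B => 1 + ∑ c, |z.2.1 c|) (dzLaw G L B) := by
  refine (integrable_const (1 : ℝ)).add (integrable_finsetSum _ fun c _ => ?_)
  exact (((Vale.Agent.P168.Toolkit.integrable_eval_gaussPi c).comp_fst B.law).comp_snd
    (orthHaar N)).abs

theorem integrable_pairD (hν : P.ν = N) (hN : 0 < N) (ls : List (Fin G × Fin n × Fin n))
    (l l' : Fin n) (a b : Fin N) : Integrable (pairD P s x B ls l l' a b) (dzLaw G L B) := by
  obtain ⟨C, hC⟩ := exists_pairD_bound s x B hν hN ls l l' a b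
  exact ((integrable_absJ B).const_mul C).mono'
    (measurable_pairD P s x B ls l l' a b).aestronglyMeasurable (ae_of_all _ fun z => hC z)

theorem preserving_mul (g : OG N) :
    MeasurePreserving (fun z : Dz G L B => (g * z.1, z.2)) (dzLaw G L B) (dzLaw G L B) :=
  (measurePreserving_mul_left (orthHaar N) g).prod (MeasurePreserving.id _)

/-- Left invariance of the Haar law kills the mean derivative. -/
theorem integral_pairD (hν : P.ν = N) (hN : 0 < N) (ls : List (Fin G × Fin n × Fin n))
    (l l' : Fin n) {a b : Fin N} (hab : a ≠ b) :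
    ∫ z, pairD P s x B ls l l' a b z ∂dzLaw G L B = 0 := by
  obtain ⟨C, hC⟩ := exists_pairD_bound s x B hν hN ls l l' a b
  set Φ : Dz G L B → ℝ := fun z => rav n (P.ham s x B z) (pairF P ls l l' a b z.1) with hΦ
  have hΦm : Measurable Φ := measurable_rav' P s x B (measurable_pairF P B ls l l' a b)
  have hΦb : ∀ z, |Φ z| ≤ Real.sqrt N * Real.sqrt N := fun z => abs_rav_le _ _ _ fun σ => by
    rw [pairF, abs_mul]
    refine (mul_le_of_le_one_left (abs_nonneg _)
      (abs_monV_le hν (fun q => sum_rot_le z.1 (σ q)) ls)).trans ?_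
    rw [abs_mul]
    exact mul_le_mul (abs_rot_le _ _ a) (abs_rot_le _ _ b) (abs_nonneg _) (Real.sqrt_nonneg _)
  have hΦi : Integrable Φ (dzLaw G L B) :=
    Integrable.of_bound hΦm.aestronglyMeasurable _ (ae_of_all _ fun z => hΦb z)
  have hinv : ∀ (f : Dz G L B → ℝ), Measurable f → ∀ θ : ℝ,
      ∫ z, f (turnOG a b θ * z.1, z.2) ∂dzLaw G L B = ∫ z, f z ∂dzLaw G L B := fun f hf θ => by
    conv_rhs => rw [← (preserving_mul B (turnOG a b θ)).map_eq]
    exact (integral_map (preserving_mul B (turnOG a b θ)).measurable.aemeasurable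
      hf.aestronglyMeasurable).symm
  have hd : ∀ (z : Dz G L B) (θ : ℝ), HasDerivAt (fun t => Φ (turnOG a b t * z.1, z.2))
      (pairD P s x B ls l l' a b (turnOG a b θ * z.1, z.2)) θ := fun z θ => by
    have hv : ∀ (σ : Cube N) i, HasDerivAt (fun t => rot (turnOG a b t * z.1) σ i)
        (gen a b (rot (turnOG a b θ * z.1) σ) i) θ := fun σ i => by
      simp only [rot_turn hab]; exact hasDerivAt_turn hab θ _ i
    refine hasDerivAt_rav_curve (fun y => ?_) fun σ => ?_
    · show HasDerivAt (fun r => B.lw z.2.2 y + hamV P s x z.2.1 (rot (turnOG a b r * z.1) y)) _ θ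
      exact (hasDerivAt_hamV P s x z.2.1 (hv y)).const_add _
    · exact (hasDerivAt_monV P (fun q => hv (σ q)) ls).mul ((hv (σ l) a).mul (hv (σ l') b))
  have key := (hasDerivAt_integral_of_dominated_loc_of_deriv_le (μ := dzLaw G L B)
    (F := fun t z => Φ (turnOG a b t * z.1, z.2))
    (F' := fun t z => pairD P s x B ls l l' a b (turnOG a b t * z.1, z.2))
    (bound := fun z => C * (1 + ∑ c, |z.2.1 c|)) (s := Set.univ) (x₀ := (0 : ℝ)) Filter.univ_mem
    (Filter.Eventually.of_forall fun t =>
      (hΦm.comp (preserving_mul B _).measurable).aestronglyMeasurable)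
    ((preserving_mul B _).integrable_comp_of_integrable hΦi)
    ((measurable_pairD P s x B ls l l' a b).comp (preserving_mul B _).measurable).aestronglyMeasurable
    (ae_of_all _ fun z t _ => hC (turnOG a b t * z.1, z.2)) ((integrable_absJ B).const_mul C)
    (ae_of_all _ fun z t _ => hd z t)).2
  have hconst : (fun t => ∫ z, Φ (turnOG a b t * z.1, z.2) ∂dzLaw G L B) =
      fun _ => ∫ z, Φ z ∂dzLaw G L B := funext fun t => hinv Φ hΦm t
  rw [hconst] at key
  have h0 := key.unique (hasDerivAt_const (0 : ℝ) _)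
  rwa [hinv _ (measurable_pairD P s x B ls l l' a b) 0] at h0

end Vale.Agent.P166.Haar2.Rot
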